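import Vale.Agent.P147.H686.Osc7

/-! Without escape upwards the upward speed is zero. -/

open MeasureTheory Filter
open scoped ENNReal

namespace Vale.Agent.P147.Z

variable {d : ℕ} {h : Site d →+ ℤ}

/-- The path reaches level `(J + 1) N` within time `C J N`. -/
def Fast (h : Site d →+ ℤ) (C N J : ℕ) : Set (ℕ → Site d) :=
  {X | ∃ n ≤ C * J * N, (((J + 1) * N : ℕ) : ℤ) ≤ h (X n)}

lemma meas_Fast (C N J : ℕ) : MeasurableSet (Fast h C N J) := by
  have : Fast h C N J = ⋃ n : ℕ, {X | n ≤ C * J * N ∧ (((J + 1) * N : ℕ) : ℤ) ≤ h (X n)} := by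
    ext X; simp [Fast]
  rw [this]
  refine MeasurableSet.iUnion fun n => measurableSet_local n _ fun X Y hXY hX => ?_
  rw [← hXY n le_rfl]
  exact hX

/-- The first passage words with few departures from the residue class. -/
def FW (h : Site d →+ ℤ) (C N J a : ℕ) : Set (List (Dir d)) :=
  {l | l ∈ FPZ h ((a : ℤ) + J * N) ∧ na h N a 0 l ≤ C * J}

lemma Fast_cover {C N J : ℕ} (hN : 0 < N) : Fast h C N J ∩ Good 0 ⊆
    ⋃ a ∈ Finset.range N, ⋃ l : FW h C N J a, cyl 0 (l : List (Dir d)) := by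
  rintro X ⟨⟨n, hn, hX⟩, hg⟩
  obtain ⟨w, hw, hXw⟩ := hg n
  rw [mem_lists] at hw
  have hend : X n = dsp w := by
    have h1 := cyl_pos hXw (a := w) (b := []) (by simp)
    rw [zero_add, hw] at h1
    exact h1
  -- pigeonhole on the residue
  obtain ⟨a, ha, hna⟩ : ∃ a ∈ Finset.range N, na h N a 0 w ≤ C * J := by
    by_contra hcon
    push Not at hcon
    have h1 : ∑ a ∈ Finset.range N, (C * J + 1) ≤ ∑ a ∈ Finset.range N, na h N a 0 w :=
      Finset.sum_le_sum fun a ha => hcon a ha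
    rw [sum_na hN, hw, Finset.sum_const, Finset.card_range, smul_eq_mul] at h1
    have h2 : N * (C * J + 1) = C * J * N + N := by ring
    omega
  rw [hend] at hX
  have ha' := Finset.mem_range.1 ha
  obtain ⟨l, b, rfl, h1, h2⟩ := exists_fp (h := h) (v := 0) (m := (a : ℤ) + J * N) (l := w) (by
    rw [zero_add]
    refine le_trans ?_ hX
    push_cast
    have : (a : ℤ) < N := by exact_mod_cast ha'
    linarith)
  rw [zero_add] at h2
  simp only [Set.mem_iUnion]
  refine ⟨a, ha, ⟨l, ⟨h1, h2⟩, ?_⟩, ?_⟩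
  · rw [na_append] at hna
    omega
  · intro i hi
    have hi' : i ≤ l.length := hi
    have h3 := hXw i (by rw [List.length_append]; omega)
    rw [h3, List.take_append_of_le_length hi']

variable (hstep : ∀ u : Dir d, |h (vec u)| ≤ 1)
variable (μ : Measure (Row d)) [IsProbabilityMeasure μ]
include hstep

lemma Fast_le {C N J : ℕ} (hN : 0 < N)
    (hkey : ∀ π : List (Dir d), (∀ x ∈ exits 0 π, h x < h (dsp π)) →
      ∑' c : QK h N (C + 2), wt μ (π ++ (c : List (Dir d))) ≤ 2⁻¹ ^ (C + 2) * wt μ π) :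
    annM μ 0 (Fast h C N J) ≤ N * 2⁻¹ ^ J := by
  have hs : (2⁻¹ : ℝ≥0∞) ≤ 1 := by simp
  have h2 : (2⁻¹ : ℝ≥0∞) * 2 = 1 := ENNReal.inv_mul_cancel (by norm_num) (by norm_num)
  rw [annM_apply μ 0 (meas_Fast C N J)]
  calc annealed μ 0 (Fast h C N J)
      ≤ annealed μ 0 (Fast h C N J ∩ Good 0) := annealed_inter_good μ 0 _
    _ ≤ annealed μ 0 (⋃ a ∈ Finset.range N, ⋃ l : FW h C N J a, cyl 0 (l : List (Dir d))) :=
        annealed_mono μ 0 (Fast_cover hN)
    _ = annM μ 0 (⋃ a ∈ Finset.range N, ⋃ l : FW h C N J a, cyl 0 (l : List (Dir d))) :=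
        (annM_apply μ 0 (Finset.measurableSet_biUnion _ fun a _ => MeasurableSet.iUnion
          fun l => measurableSet_cyl 0 _)).symm
    _ ≤ ∑ a ∈ Finset.range N, annM μ 0 (⋃ l : FW h C N J a, cyl 0 (l : List (Dir d))) :=
        measure_biUnion_finset_le _ _
    _ ≤ ∑ a ∈ Finset.range N, ∑' l : FW h C N J a, annM μ 0 (cyl 0 (l : List (Dir d))) :=
        Finset.sum_le_sum fun a _ => measure_iUnion_le _
    _ = ∑ a ∈ Finset.range N, ∑' l : FW h C N J a, wt μ (l : List (Dir d)) := by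
        refine Finset.sum_congr rfl fun a _ => tsum_congr fun l => ?_
        rw [annM_apply μ 0 (measurableSet_cyl 0 _), annealed_cyl']
    _ ≤ ∑ a ∈ Finset.range N, 2 ^ (C * J) * Gf μ h N a ((a : ℤ) + J * N) 2⁻¹ := by
        refine Finset.sum_le_sum fun a _ => ?_
        rw [Gf, ← ENNReal.tsum_mul_left, tsum_subtype (FW h C N J a) (fun l => wt μ l),
          tsum_subtype (FPZ h ((a : ℤ) + J * N))
            (fun l => 2 ^ (C * J) * (wt μ l * 2⁻¹ ^ na h N a 0 l))]
        refine ENNReal.tsum_le_tsum fun l => ?_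
        by_cases hl : l ∈ FW h C N J a
        · rw [Set.indicator_of_mem hl, Set.indicator_of_mem hl.1]
          obtain ⟨k, hk⟩ := Nat.exists_eq_add_of_le hl.2
          rw [hk, pow_add]
          calc wt μ l = 1 * wt μ l * 1 := by rw [one_mul, mul_one]
            _ ≤ (2 : ℝ≥0∞) ^ k * wt μ l * ((2⁻¹ * 2) ^ na h N a 0 l) := by
                rw [h2, one_pow]
                gcongr
                exact one_le_pow₀ (by norm_num)
            _ = _ := by rw [mul_pow]; ring
        · rw [Set.indicator_of_notMem hl]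
          exact zero_le
    _ ≤ ∑ a ∈ Finset.range N, 2 ^ (C * J) * (2⁻¹ ^ (C + 2) + 2⁻¹ ^ (C + 2)) ^ J := by
        refine Finset.sum_le_sum fun a ha => ?_
        gcongr
        exact Gf_iter hstep μ hs hkey (Finset.mem_range.1 ha) J
    _ = N * 2⁻¹ ^ J := by
        rw [Finset.sum_const, Finset.card_range, nsmul_eq_mul]
        congr 1
        have e : (2⁻¹ : ℝ≥0∞) ^ (C + 2) + 2⁻¹ ^ (C + 2) = 2⁻¹ ^ C * 2⁻¹ := by
          calc (2⁻¹ : ℝ≥0∞) ^ (C + 2) + 2⁻¹ ^ (C + 2) = 2⁻¹ ^ C * 2⁻¹ * (2⁻¹ * 2) := by ring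
            _ = _ := by rw [h2, mul_one]
        have h3 : (2 : ℝ≥0∞) ^ C * 2⁻¹ ^ C = 1 := by
          rw [← mul_pow, ENNReal.mul_inv_cancel (by norm_num) (by norm_num), one_pow]
        rw [e, pow_mul, ← mul_pow, ← mul_assoc, h3, one_mul]

/-- **No escape upwards implies zero upward speed.** -/
theorem osc_sup (hμ : Elliptic μ) (hT : annealed μ 0 (EscR (rl h)) = 0) :
    ∀ᵐ X ∂(annM μ 0), ∀ ε : ℝ, 0 < ε → ∀ᶠ n : ℕ in atTop, (h (X n) : ℝ) ≤ ε * n := by
  have hC : ∀ C : ℕ, ∀ᵐ X ∂(annM μ 0), 0 < C → ∀ᶠ n : ℕ in atTop, (C : ℤ) * h (X n) ≤ 2 * n := by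
    intro C
    obtain ⟨N, hN, hkey⟩ := key_small μ hμ hT hstep (C + 2) (ε := 2⁻¹ ^ (C + 2)) (by simp)
    have hsum : ∑' J, annM μ 0 (Fast h C N J) ≠ ⊤ := by
      refine ne_top_of_le_ne_top ?_ (ENNReal.tsum_le_tsum fun J => Fast_le hstep μ hN hkey)
      rw [ENNReal.tsum_mul_left, ENNReal.tsum_geometric]
      refine ENNReal.mul_ne_top (ENNReal.natCast_ne_top _) ?_
      simp [ENNReal.one_sub_inv_two]
    have h1 := ae_eventually_notMem hsum
    filter_upwards [h1] with X hX hC0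
    obtain ⟨J0, hJ0⟩ := eventually_atTop.1 hX
    rw [eventually_atTop]
    refine ⟨max (C * J0 * N) (2 * C * N), fun n hn => ?_⟩
    have hCN : 0 < C * N := Nat.mul_pos hC0 hN
    set J := n / (C * N) + 1 with hJ
    have h2 : J0 ≤ J := by
      have h3 : C * N * J0 ≤ n := by
        have := (le_max_left _ _).trans hn
        calc C * N * J0 = C * J0 * N := by ring
          _ ≤ n := this
      have h4 : J0 ≤ n / (C * N) := (Nat.le_div_iff_mul_le hCN).2 (by
        calc J0 * (C * N) = C * N * J0 := by ring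
          _ ≤ n := h3)
      omega
    have h3 := hJ0 J h2
    have h4 : n ≤ C * J * N := by
      have h5 := Nat.lt_div_mul_add (a := n) hCN
      calc n ≤ n / (C * N) * (C * N) + C * N := h5.le
        _ = C * J * N := by rw [hJ]; ring
    have h5 : h (X n) < (((J + 1) * N : ℕ) : ℤ) := by
      by_contra hcon
      exact h3 ⟨n, h4, not_lt.1 hcon⟩
    have h6 : n / (C * N) * (C * N) ≤ n := Nat.div_mul_le_self _ _
    have h7 : 2 * C * N ≤ n := (le_max_right _ _).trans hn
    have h8 : ((C * ((J + 1) * N) : ℕ) : ℤ) ≤ 2 * n := by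
      have : C * ((J + 1) * N) ≤ 2 * n := by
        calc C * ((J + 1) * N) = n / (C * N) * (C * N) + 2 * C * N := by rw [hJ]; ring
          _ ≤ 2 * n := by omega
      exact_mod_cast this
    calc (C : ℤ) * h (X n) ≤ C * (((J + 1) * N : ℕ) : ℤ) := by
          exact mul_le_mul_of_nonneg_left h5.le (by positivity)
      _ ≤ 2 * n := by push_cast at h8 ⊢; linarith
  rw [← ae_all_iff] at hC
  filter_upwards [hC] with X hX ε hε
  obtain ⟨C, hC⟩ := exists_nat_ge (2 / ε)
  have hC0 : 0 < C := by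
    have : (0 : ℝ) < C := lt_of_lt_of_le (by positivity) hC
    exact_mod_cast this
  filter_upwards [hX C hC0] with n hn
  have h1 : (C : ℝ) * h (X n) ≤ 2 * n := by exact_mod_cast hn
  have hC1 : (0 : ℝ) < C := by exact_mod_cast hC0
  rw [div_le_iff₀ hε] at hC
  have h2 : (2 : ℝ) * n ≤ C * ε * n := mul_le_mul_of_nonneg_right hC (Nat.cast_nonneg n)
  have h3 : (C : ℝ) * h (X n) ≤ C * (ε * n) := by linarith
  exact le_of_mul_le_mul_left h3 hC1

end Vale.Agent.P147.Z
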