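import Vale.Agent.P147.H686.Reg4
import Vale.Agent.P147.H686.Osc8
import Vale.Agent.P147.Bd3.B4

/-! The law of large numbers for random walk in an iid elliptic random environment. -/

open MeasureTheory Filter
open scoped ENNReal Topology

namespace Vale.Agent.P147.Z

variable {d : ℕ} (μ : Measure (Row d)) [IsProbabilityMeasure μ]

/-- Given escape in the direction of `h`, every invariant event has probability zero or one. -/
theorem zero_one_givenR (h : Site d →+ ℝ) {B : Set (ℕ → Site d)} (hB : MeasurableSet B)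
    (hT : TInv B) (hS : SInv B) (hpos : annealed μ 0 (EscR h ∩ B) ≠ 0) :
    annealed μ 0 (EscR h \ B) = 0 := by
  set A : Set (ℕ → Site d) := UpR h ∩ B with hA
  have hAm : MeasurableSet A := (measurableSet_upR h).inter hB
  have hAT : TInv A := tinv_inter (tinv_upR h) hT
  have hp : annealed μ 0 A ≠ 0 := upR_pos μ h hB hT hS hpos
  have hp' : (annealed μ 0 A).toReal ≠ 0 := by
    rw [← annM_apply μ 0 hAm] at hp ⊢
    exact (ENNReal.toReal_ne_zero).2 ⟨hp, measure_ne_top _ _⟩
  have hG : MeasurableSet (EscR h \ B) := (measurableSet_escR h).diff hB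
  refine null_of_tendstoR μ h hG (fun X hX k => ?_) hp' ?_
  · obtain ⟨n, hn⟩ := (tendsto_atTop_atTop.1 hX.1) (k : ℝ)
    exact ⟨n, hn n le_rfl⟩
  · have h1 := (fp_limitR μ h hAm hAT (fun X hX => hX.1.1) hG).neg
    rw [neg_zero] at h1
    refine h1.congr fun k => ?_
    have e : RAR h A k ∩ (EscR h \ B) = ∅ := by
      ext X
      simp only [Set.mem_inter_iff, Set.mem_empty_iff_false, iff_false]
      rintro ⟨hX, hX2⟩
      simp only [RAR, Set.mem_iUnion] at hX
      obtain ⟨l, _, _, hX3⟩ := hX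
      exact hX2.2 ((sinv_tl hS l.length X).1 hX3.2)
    rw [e]
    simp only [measure_empty, ENNReal.toReal_zero, zero_sub, neg_neg]

/-- The directional law of large numbers in a direction of escape. -/
theorem dir_lln {L : Site d →+ ℝ} (hL : Lvl L) (h1 : annealed μ 0 (EscR L)ᶜ = 0) :
    ∃ c : ℝ, ∀ᵐ X ∂(annM μ 0), Tendsto (fun n : ℕ => L (X n) / n) atTop (𝓝 c) := by
  have hE : annM μ 0 (EscR L)ᶜ = 0 := by rwa [annM_apply μ 0 (measurableSet_escR L).compl]
  have hne : annealed μ 0 (EscR L) ≠ 0 := by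
    intro h0
    rw [← annM_apply μ 0 (measurableSet_escR L)] at h0
    have h2 : annM μ 0 Set.univ ≤ 0 := by
      rw [← Set.union_compl_self (EscR L)]
      exact (measure_union_le _ _).trans (by rw [h0, hE, add_zero])
    rw [measure_univ] at h2
    exact absurd h2 (by simp)
  have hp : annealed μ 0 (UpR L) ≠ 0 := by
    have := upR_pos μ L MeasurableSet.univ (B := Set.univ) (fun _ _ => by simp)
      (fun _ => by simp) (by simpa using hne)
    simpa only [ne_eq, Set.inter_univ] using this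
  obtain ⟨c, hc⟩ := Reg.lln_nu μ hL hp
  refine ⟨c, ?_⟩
  have h2 : annealed μ 0 (EscR L ∩ Reg.LC L c) ≠ 0 := by
    intro h0
    apply hc
    refine le_antisymm (le_trans (annealed_mono μ 0 ?_) h0.le) zero_le
    exact Set.inter_subset_inter_left _ fun X hX => hX.2
  have h3 := zero_one_givenR μ L (Reg.meas_LC L c) (Reg.tinv_LC L c) (Reg.sinv_LC L c) h2
  rw [← annM_apply μ 0 ((measurableSet_escR L).diff (Reg.meas_LC L c))] at h3
  change annM μ 0 (Reg.LC L c)ᶜ = 0
  refine measure_mono_null (fun X hX => ?_) (measure_union_null h3 hE)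
  by_cases hX' : X ∈ EscR L
  · exact Or.inl ⟨hX', hX⟩
  · exact Or.inr hX'

/-- A coordinate, as an integer functional. -/
def cf (d : ℕ) (i : Fin d) : Site d →+ ℤ := Pi.evalAddMonoidHom (fun _ => ℤ) i

lemma cf_apply (i : Fin d) (x : Site d) : cf d i x = x i := rfl

lemma cf_step (i : Fin d) (u : Dir d) : |cf d i (vec u)| ≤ 1 := by
  obtain ⟨j, b⟩ := u
  rw [cf_apply, vec]
  by_cases h : i = j
  · subst h
    cases b <;> simp
  · rw [Pi.single_eq_of_ne h]
    simp

lemma rl_cf (i : Fin d) : rl (cf d i) = innerHom (Pi.single i (1 : ℝ)) := by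
  refine DFunLike.ext _ _ fun x => ?_
  change ((x i : ℤ) : ℝ) = ∑ j, (x j : ℝ) * (Pi.single i (1 : ℝ) : Fin d → ℝ) j
  simp [Pi.single_apply]

lemma rl_neg (h : Site d →+ ℤ) : rl (-h) = -rl h := by
  ext x
  simp [rl]

lemma lvl_cf (i : Fin d) : Lvl (rl (cf d i)) := by
  refine ⟨fun u => ?_, (i, true), ?_⟩
  · rw [rl_apply]
    exact_mod_cast cf_step i u
  · rw [rl_apply, cf_apply, vec]
    simp

lemma lvl_neg_cf (i : Fin d) : Lvl (rl (-cf d i)) := by
  refine ⟨fun u => ?_, (i, false), ?_⟩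
  · rw [rl_apply, AddMonoidHom.neg_apply, Int.cast_neg, abs_neg]
    exact_mod_cast cf_step i u
  · rw [rl_apply, AddMonoidHom.neg_apply, cf_apply, vec]
    simp

/-- The law of large numbers for one coordinate. -/
theorem coord_lln (hd : 2 ≤ d) (hμ : Elliptic μ) (i : Fin d) :
    ∃ c : ℝ, ∀ᵐ X ∂(annM μ 0), Tendsto (fun n : ℕ => (X n i : ℝ) / n) atTop (𝓝 c) := by
  set v : Fin d → ℝ := Pi.single i (1 : ℝ) with hv
  have e1 : (Escape v : Set (ℕ → Site d)) = EscR (rl (cf d i)) := by
    rw [rl_cf]; rfl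
  have e2 : (Escape (-v) : Set (ℕ → Site d)) = EscR (rl (-cf d i)) := by
    rw [rl_neg, rl_cf, ← innerHom_neg]; rfl
  have hc : ∀ {w : Fin d → ℝ}, annealed μ 0 (Escape w) = 1 → annealed μ 0 (Escape w)ᶜ = 0 := by
    intro w h
    have hm : MeasurableSet (Escape w : Set (ℕ → Site d)) := measurableSet_escR (innerHom w)
    rw [← annM_apply μ 0 hm.compl]
    rw [← annM_apply μ 0 hm] at h
    exact (prob_compl_eq_zero_iff hm).2 h
  rcases zero_one μ hd hμ v with h1 | h1
  · rcases zero_one μ hd hμ (-v) with h2 | h2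
    · refine ⟨0, ?_⟩
      rw [e1] at h1
      rw [e2] at h2
      have h3 := osc_sup (cf_step i) μ hμ h1
      have h4 := osc_sup (h := -cf d i) (fun u => by
        rw [AddMonoidHom.neg_apply, abs_neg]; exact cf_step i u) μ hμ h2
      filter_upwards [h3, h4] with X h5 h6
      rw [Metric.tendsto_atTop]
      intro ε hε
      have h7 := (h5 (ε / 2) (by positivity)).and (h6 (ε / 2) (by positivity))
      obtain ⟨N, hN⟩ := eventually_atTop.1 h7
      refine ⟨max N 1, fun n hn => ?_⟩
      obtain ⟨h8, h9⟩ := hN n ((le_max_left _ _).trans hn)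
      have hn0 : (0 : ℝ) < n := by exact_mod_cast (le_max_right _ _).trans hn
      rw [AddMonoidHom.neg_apply, Int.cast_neg] at h9
      rw [cf_apply] at h8 h9
      rw [Real.dist_eq, sub_zero, abs_div, Nat.abs_cast, div_lt_iff₀ hn0]
      have h10 : |(X n i : ℝ)| ≤ ε / 2 * n := abs_le.2 ⟨by linarith, h8⟩
      have h11 : 0 < ε / 2 * n := by positivity
      linarith
    · obtain ⟨c, hcc⟩ := dir_lln μ (lvl_neg_cf i) (by rw [← e2]; exact hc h2)
      refine ⟨-c, ?_⟩
      filter_upwards [hcc] with X hX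
      refine hX.neg.congr fun n => ?_
      rw [rl_apply, AddMonoidHom.neg_apply, cf_apply, Int.cast_neg, neg_div, neg_neg]
  · obtain ⟨c, hcc⟩ := dir_lln μ (lvl_cf i) (by rw [← e1]; exact hc h1)
    refine ⟨c, ?_⟩
    filter_upwards [hcc] with X hX
    exact hX

/-- **The law of large numbers.** -/
theorem lln (hd : 2 ≤ d) (hμ : Elliptic μ) :
    ∃ w : Fin d → ℝ, ∀ᵐ X ∂(annM μ 0), X ∈ (Speed w : Set (ℕ → Site d)) := by
  choose w hw using coord_lln μ hd hμ
  refine ⟨w, ?_⟩
  rw [← ae_all_iff] at hw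
  filter_upwards [hw] with X hX
  rw [Speed, Set.mem_ofPred_eq, tendsto_pi_nhds]
  exact hX

end Vale.Agent.P147.Z
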