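import Vale.Agent.P147.H686.Stat
import Vale.Agent.P147.H686.Lln

/-! The ballistic case: the directions of escape are those with positive inner product with the
velocity. -/

open MeasureTheory Filter
open scoped ENNReal Topology

namespace Vale.Agent.P147.Z

variable {d : ℕ} (μ : Measure (Row d)) [IsProbabilityMeasure μ]

namespace Reg

variable {L : Site d →+ ℝ}

lemma at_end_vec {X : ℕ → Site d} (h0 : X 0 = 0) (hb : ∀ k, (th L)^[k] X ∈ HasB L) (m : ℕ) :
    X (St L X m) = ∑ k ∈ Finset.range m, dsp (sg L ((th L)^[k] X)) := by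
  induction m with
  | zero => simp [St, h0]
  | succ m ih =>
    obtain ⟨_, h2⟩ := sg_spec (hb m)
    have h3 := cyl_pos h2.1 (a := sg L ((th L)^[m] X)) (b := []) (by simp)
    rw [zero_add] at h3
    have h4 := congrFun (th_iter L h0 m) (sg L ((th L)^[m] X)).length
    simp only [nrm, tl, zero_add] at h4
    rw [h3] at h4
    have e : St L X (m + 1) = (sg L ((th L)^[m] X)).length + St L X m := by
      rw [St, Finset.sum_range_succ, add_comm]; rfl
    rw [e, Finset.sum_range_succ, ← ih, h4]
    abel

/-- If a functional has sublinear growth along the walk and the height has positive speed, then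
the functional does not tend to infinity. -/
theorem no_escape_flat (hL : Lvl L) (hp : annealed μ 0 (UpR L) ≠ 0) (φ : Site d →+ ℝ) {c : ℝ}
    (hc : c ≠ 0) (hsp : ∀ᵐ X ∂(nu L μ), Tendsto (fun n : ℕ => L (X n) / n) atTop (𝓝 c))
    (hflat : ∀ᵐ X ∂(nu L μ), Tendsto (fun n : ℕ => φ (X n) / n) atTop (𝓝 0))
    (hesc : ∀ᵐ X ∂(nu L μ), Tendsto (fun n : ℕ => φ (X n)) atTop atTop) : False := by
  have hprob := nu_prob μ hp
  obtain ⟨r, hr⟩ := rate μ hL hp
  have hall := all_blocks μ hL hp
  have hsl := slln μ hL hp (fun a => L (dsp a)) (int_height μ hL hp)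
  -- the number of blocks per unit of time is positive
  have hr0 : r ≠ 0 := by
    rintro rfl
    obtain ⟨X, h1, h2, h3, h4⟩ := (hr.and (hsl.and (hall.and hsp))).exists
    have h5 := limit_aux (S := St L X) (H := Ht L X) (x := fun n => L (X n)) (by simp [St])
      (St_strict h3.2) (fun m n h6 h7 => sandwich h3.1 h3.2 m n h6 h7) (Ht_nonneg h3.2) h2 h1
    rw [mul_zero] at h5
    exact hc (tendsto_nhds_unique h4 h5)
  have hV : Measurable (fun X : ℕ → Site d => φ (dsp (sg L X))) := meas_comp_sg L fun a => φ (dsp a)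
  have hS : ∀ {X : ℕ → Site d}, X 0 = 0 → (∀ k, (th L)^[k] X ∈ HasB L) → ∀ m,
      Stat.Sm (th L) (fun X => φ (dsp (sg L X))) m X = φ (X (St L X m)) := by
    intro X h0 hb m
    rw [at_end_vec h0 hb, map_sum]
    rfl
  refine Stat.no_escape (mp_th μ hL hp) hV ?_ ?_
  · filter_upwards [hr, hflat, hall] with X h1 h2 h3
    have hSt : Tendsto (St L X) atTop atTop := (St_strict h3.2).tendsto_atTop
    have h4 := (h2.comp hSt).mul (h1.inv₀ hr0)
    rw [zero_mul] at h4
    refine h4.congr' ?_
    filter_upwards [eventually_ge_atTop 1] with m hm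
    have h5 : 0 < St L X m := lt_of_lt_of_le (show 0 < m by omega) ((St_strict h3.2).id_le m)
    have h6 : (St L X m : ℝ) ≠ 0 := by
      have : (0 : ℝ) < St L X m := by exact_mod_cast h5
      exact this.ne'
    have h7 : (m : ℝ) ≠ 0 := by
      have : (0 : ℝ) < m := by exact_mod_cast hm
      exact this.ne'
    rw [hS h3.1 h3.2 m]
    simp only [Function.comp]
    field_simp
  · filter_upwards [hesc, hall] with X h1 h2
    have hSt : Tendsto (St L X) atTop atTop := (St_strict h2.2).tendsto_atTop
    refine (h1.comp hSt).congr fun m => ?_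
    rw [hS h2.1 h2.2 m]
    rfl

omit [IsProbabilityMeasure μ] in
lemma nu_ae {p : (ℕ → Site d) → Prop} (hp : ∀ᵐ X ∂(annM μ 0), p X) : ∀ᵐ X ∂(nu L μ), p X := by
  rw [ae_iff] at hp ⊢
  rw [nu_apply, measure_mono_null Set.inter_subset_right hp, mul_zero]

end Reg

lemma inner_lim {w : Fin d → ℝ} {X : ℕ → Site d} (hX : X ∈ (Speed w : Set (ℕ → Site d)))
    (v : Fin d → ℝ) : Tendsto (fun n : ℕ => innerHom v (X n) / n) atTop (𝓝 (∑ i, w i * v i)) := by
  have h1 : Tendsto (fun n : ℕ => ∑ i, ((X n i : ℝ) / n) * v i) atTop (𝓝 (∑ i, w i * v i)) := by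
    refine tendsto_finsetSum _ fun i _ => Tendsto.mul_const _ ?_
    exact (tendsto_pi_nhds.1 hX) i
  refine h1.congr fun n => ?_
  rw [innerHom_apply, inner, Finset.sum_div]
  exact Finset.sum_congr rfl fun i _ => by ring

lemma escape_of_pos {w v : Fin d → ℝ} (hwv : 0 < ∑ i, w i * v i) :
    (Speed w : Set (ℕ → Site d)) ⊆ Escape v := by
  intro X hX
  have h1 := inner_lim hX v
  have h2 : ∀ᶠ n : ℕ in atTop, (∑ i, w i * v i) / 2 * n ≤ inner (X n) v := by
    filter_upwards [h1.eventually_const_lt (half_lt_self hwv), eventually_ge_atTop 1] with n hn hn1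
    have hn0 : (0 : ℝ) < n := by exact_mod_cast hn1
    rw [lt_div_iff₀ hn0] at hn
    exact hn.le
  refine tendsto_atTop_mono' atTop h2 ?_
  exact Tendsto.const_mul_atTop (by positivity) tendsto_natCast_atTop_atTop

/-- In the ballistic case the directions of escape are those with positive inner product with the
velocity. -/
theorem ballistic {w : Fin d → ℝ} (hw : w ≠ 0)
    (hS : ∀ᵐ X ∂(annM μ 0), X ∈ (Speed w : Set (ℕ → Site d))) (v : Fin d → ℝ) :
    annealed μ 0 (Escape v) = 1 ↔ 0 < ∑ i, w i * v i := by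
  have hm : ∀ v : Fin d → ℝ, MeasurableSet (Escape v : Set (ℕ → Site d)) := fun v =>
    measurableSet_escR (innerHom v)
  have hpos : ∀ {v : Fin d → ℝ}, 0 < ∑ i, w i * v i →
      ∀ᵐ X ∂(annM μ 0), X ∈ (Escape v : Set (ℕ → Site d)) := by
    intro v hv
    filter_upwards [hS] with X hX using escape_of_pos hv hX
  have hone : ∀ {v : Fin d → ℝ}, annealed μ 0 (Escape v) = 1 →
      ∀ᵐ X ∂(annM μ 0), X ∈ (Escape v : Set (ℕ → Site d)) := by
    intro v h
    rw [← annM_apply μ 0 (hm v)] at h
    exact (prob_compl_eq_zero_iff (hm v)).2 h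
  constructor
  · intro h1
    by_contra hcon
    rw [not_lt] at hcon
    rcases hcon.lt_or_eq with h2 | h2
    · have h3 : 0 < ∑ i, w i * (-v) i := by
        simp only [Pi.neg_apply, mul_neg, Finset.sum_neg_distrib]
        linarith
      obtain ⟨X, h4, h5⟩ := ((hone h1).and (hpos h3)).exists
      obtain ⟨n, h6, h7⟩ := ((tendsto_atTop.1 h4 1).and (tendsto_atTop.1 h5 1)).exists
      have h8 : inner (X n) (-v) = -inner (X n) v := by
        simp [inner, Finset.sum_neg_distrib]
      rw [h8] at h7
      linarith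
    · -- the flat case
      have hww : 0 < ∑ i, w i * w i := by
        obtain ⟨i, hi⟩ : ∃ i, w i ≠ 0 := by
          by_contra hcon
          push Not at hcon
          exact hw (funext hcon)
        exact Finset.sum_pos' (fun j _ => mul_self_nonneg _)
          ⟨i, Finset.mem_univ i, mul_self_pos.2 hi⟩
      have hn : 0 < ‖w‖ := norm_pos_iff.2 hw
      have hLw := lvl_lev hw
      have hne : annealed μ 0 (EscR (lev w)) ≠ 0 := by
        rw [← escape_lev hw, ← annM_apply μ 0 (hm w)]
        intro h0
        have h3 : annM μ 0 (Escape w)ᶜ = 0 := hpos hww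
        have h4 : annM μ 0 Set.univ ≤ 0 := by
          rw [← Set.union_compl_self (Escape w)]
          exact (measure_union_le _ _).trans (by rw [h0, h3, add_zero])
        rw [measure_univ] at h4
        exact absurd h4 (by simp)
      have hp : annealed μ 0 (UpR (lev w)) ≠ 0 := by
        have := upR_pos μ (lev w) MeasurableSet.univ (B := Set.univ) (fun _ _ => by simp)
          (fun _ => by simp) (by simpa using hne)
        simpa only [ne_eq, Set.inter_univ] using this
      refine Reg.no_escape_flat μ hLw hp (innerHom v) (c := (∑ i, w i * w i) / ‖w‖)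
        (by positivity) ?_ ?_ ?_
      · refine Reg.nu_ae μ ?_
        filter_upwards [hS] with X hX
        have h3 := (inner_lim hX w).div_const ‖w‖
        refine h3.congr fun n => ?_
        rw [lev_apply, innerHom_apply]
        ring
      · refine Reg.nu_ae μ ?_
        filter_upwards [hS] with X hX
        have h3 := inner_lim hX v
        rwa [h2] at h3
      · refine Reg.nu_ae μ ?_
        filter_upwards [hone h1] with X hX using hX
  · intro h1
    rw [← annM_apply μ 0 (hm v)]
    exact (prob_compl_eq_zero_iff (hm v)).1 (hpos h1)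

end Vale.Agent.P147.Z
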