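import Vale.Agent.P147.Defs

open MeasureTheory Filter Vale.Agent.P147
open scoped ENNReal

namespace Vale.Agent.P147.Ln

/-- The walk oscillates in the direction `v`: the upper limit of `X_n · v` is `+∞` and the lower
limit is `-∞`. -/
def Oscillate {d : ℕ} (v : Fin d → ℝ) : Set (ℕ → Site d) :=
  {X | (∀ K : ℝ, ∃ᶠ n in atTop, K ≤ Vale.Agent.P147.inner (X n) v) ∧
    ∀ K : ℝ, ∃ᶠ n in atTop, Vale.Agent.P147.inner (X n) v ≤ K}

/-- The event `E` has the deterministic probability `p`, whatever the starting point: under the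
annealed law, and under the quenched law in almost every environment. -/
def HasProb {d : ℕ} (μ : Measure (Row d)) (E : Set (ℕ → Site d)) (p : ℝ≥0∞) : Prop :=
  (∀ x : Site d, annealed μ x E = p) ∧ ∀ᵐ ω ∂(envLaw μ), ∀ x : Site d, quenched ω x E = p

end Vale.Agent.P147.Ln
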