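import Vale.Agent.P147.Bd3.B1

/-! Visits to level zero: decomposition of words, for an integer functional with steps at most
one. -/

open MeasureTheory Filter
open scoped ENNReal

namespace Vale.Agent.P147.Z

variable {d : ℕ}

/-- Number of departures of the word `l`, started at `v`, from level zero. -/
def nz (h : Site d →+ ℤ) : Site d → List (Dir d) → ℕ
  | _, [] => 0
  | v, u :: l => (if h v = 0 then 1 else 0) + nz h (v + vec u) l

@[simp] lemma nz_nil (h : Site d →+ ℤ) (v : Site d) : nz h v [] = 0 := rfl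

lemma nz_cons (h : Site d →+ ℤ) (v : Site d) (u : Dir d) (l : List (Dir d)) :
    nz h v (u :: l) = (if h v = 0 then 1 else 0) + nz h (v + vec u) l := rfl

lemma nz_append (h : Site d →+ ℤ) (v : Site d) (a b : List (Dir d)) :
    nz h v (a ++ b) = nz h v a + nz h (v + dsp a) b := by
  induction a generalizing v with
  | nil => simp
  | cons u a ih => rw [List.cons_append, nz_cons, nz_cons, ih, dsp_cons, add_assoc, add_assoc]

lemma last_visit {h : Site d →+ ℤ} {v : Site d} {w : List (Dir d)} (hw : 1 ≤ nz h v w) :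
    ∃ a b, w = a ++ b ∧ b ≠ [] ∧ h (v + dsp a) = 0 ∧ nz h v a + 1 = nz h v w ∧
      nz h (v + dsp a) b = 1 := by
  induction w generalizing v with
  | nil => simp at hw
  | cons u w ih =>
    by_cases h1 : 1 ≤ nz h (v + vec u) w
    · obtain ⟨a, b, rfl, hb, h2, h3, h4⟩ := ih h1
      refine ⟨u :: a, b, rfl, hb, ?_, ?_, ?_⟩
      · rwa [dsp_cons, ← add_assoc]
      · rw [nz_cons, nz_cons, add_assoc, h3]
      · rwa [dsp_cons, ← add_assoc]
    · have h0 : nz h (v + vec u) w = 0 := by omega
      rw [nz_cons, h0, add_zero] at hw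
      have hv : h v = 0 := by
        by_contra hv
        rw [if_neg hv] at hw
        omega
      refine ⟨[], u :: w, rfl, by simp, by simpa using hv, ?_, ?_⟩
      · rw [nz_cons, h0, if_pos hv]; simp
      · rw [dsp_nil, add_zero, nz_cons, h0, if_pos hv]

variable {h : Site d →+ ℤ} (hstep : ∀ u : Dir d, |h (vec u)| ≤ 1)
include hstep

lemma stay_pos {v : Site d} {l : List (Dir d)} (hn : nz h v l = 0) (hv : 0 < h v) :
    (∀ x ∈ exits v l, 0 < h x) ∧ 0 ≤ h (v + dsp l) := by
  induction l generalizing v with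
  | nil => exact ⟨by simp, by simpa using hv.le⟩
  | cons u l ih =>
    rw [nz_cons] at hn
    have h2 : nz h (v + vec u) l = 0 := by omega
    have h3 := abs_le.1 (hstep u)
    have h4 : 0 ≤ h (v + vec u) := by rw [map_add]; omega
    rcases h4.lt_or_eq with h5 | h5
    · obtain ⟨h6, h7⟩ := ih h2 h5
      refine ⟨fun x hx => ?_, by rwa [dsp_cons, ← add_assoc]⟩
      rw [exits_cons, Finset.mem_insert] at hx
      rcases hx with rfl | hx
      · exact hv
      · exact h6 x hx
    · cases l with
      | nil => exact ⟨by simpa using hv, by simpa using h4⟩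
      | cons u' l => rw [nz_cons, if_pos h5.symm] at h2; omega

lemma stay_neg {v : Site d} {l : List (Dir d)} (hn : nz h v l = 0) (hv : h v < 0) :
    (∀ x ∈ exits v l, h x < 0) ∧ h (v + dsp l) ≤ 0 := by
  induction l generalizing v with
  | nil => exact ⟨by simp, by simpa using hv.le⟩
  | cons u l ih =>
    rw [nz_cons] at hn
    have h2 : nz h (v + vec u) l = 0 := by omega
    have h3 := abs_le.1 (hstep u)
    have h4 : h (v + vec u) ≤ 0 := by rw [map_add]; omega
    rcases h4.lt_or_eq with h5 | h5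
    · obtain ⟨h6, h7⟩ := ih h2 h5
      refine ⟨fun x hx => ?_, by rwa [dsp_cons, ← add_assoc]⟩
      rw [exits_cons, Finset.mem_insert] at hx
      rcases hx with rfl | hx
      · exact hv
      · exact h6 x hx
    · cases l with
      | nil => exact ⟨by simpa using hv, by simpa using h4⟩
      | cons u' l => rw [nz_cons, if_pos h5] at h2; omega

omit hstep

/-- The open slab. -/
def Dh (h : Site d →+ ℤ) (N : ℤ) : Set (Site d) := {x | 0 < h x ∧ h x < N}

/-- The levels at least `N`. -/
def Bh (h : Site d →+ ℤ) (N : ℤ) : Set (Site d) := {x | N ≤ h x}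

/-- The levels at most zero. -/
def Zh (h : Site d →+ ℤ) : Set (Site d) := {x | h x ≤ 0}

lemma disj_DB (N : ℤ) : Disjoint (Dh h N) (Bh h N) := by
  rw [Set.disjoint_left]
  rintro x ⟨_, h2⟩ (h3 : N ≤ h x)
  omega

lemma disj_DZ (N : ℤ) : Disjoint (Dh h N) (Zh h) := by
  rw [Set.disjoint_left]
  rintro x ⟨h2, _⟩ (h3 : h x ≤ 0)
  omega

/-- Words that end at level zero after exactly `i` departures from level zero, below level `N`. -/
def Vis (h : Site d →+ ℤ) (N : ℤ) (i : ℕ) : Set (List (Dir d)) :=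
  {π | h (dsp π) = 0 ∧ nz h 0 π = i ∧ ∀ x ∈ exits 0 π, h x < N}

/-- Return words from `y` at level zero. -/
def Ret (h : Site d →+ ℤ) (N : ℤ) (y : Site d) : Set (List (Dir d)) :=
  {ρ | h (y + dsp ρ) = 0 ∧ nz h y ρ = 1 ∧ ∀ x ∈ exits y ρ, h x < N}

/-- The departure sites of positive level. -/
def Vp (h : Site d →+ ℤ) (v : Site d) (l : List (Dir d)) : Finset (Site d) :=
  (exits v l).filter fun x => 0 < h x

lemma Vis_free (N : ℤ) (i : ℕ) : Free (Vis h N i) := by
  intro a ha b hb
  by_contra hne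
  have h1 := hb.2.1
  rw [nz_append, ha.2.1] at h1
  cases b with
  | nil => exact hne rfl
  | cons u b =>
    rw [nz_cons, if_pos (by rw [zero_add]; exact ha.1)] at h1
    omega

lemma Ret_free (N : ℤ) {y : Site d} (hy : h y = 0) : Free (Ret h N y) := by
  intro a ha b hb
  by_contra hne
  have h1 := hb.2.1
  rw [nz_append, ha.2.1] at h1
  cases b with
  | nil => exact hne rfl
  | cons u b =>
    rw [nz_cons, if_pos ha.1] at h1
    omega

/-- Decomposition of the words of `Vis (i + 1)`. -/
lemma Vis_succ {N : ℤ} {i : ℕ} {π : List (Dir d)} (hπ : π ∈ Vis h N (i + 1)) :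
    ∃ a ∈ Vis h N i, ∃ b ∈ Ret h N (dsp a), π = a ++ b := by
  obtain ⟨h1, h2, h3⟩ := hπ
  obtain ⟨a, b, rfl, hb, h4, h5, h6⟩ := last_visit (h := h) (v := 0) (w := π) (by omega)
  rw [zero_add] at h4 h6
  rw [exits_append] at h3
  refine ⟨a, ⟨h4, by omega, fun x hx => h3 x (Finset.mem_union_left _ hx)⟩, b,
    ⟨by rwa [dsp_append] at h1, h6, fun x hx => ?_⟩, rfl⟩
  refine h3 x (Finset.mem_union_right _ ?_)
  rwa [zero_add]

lemma Vp_append (v : Site d) (a b : List (Dir d)) :
    Vp h v (a ++ b) = Vp h v a ∪ Vp h (v + dsp a) b := by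
  rw [Vp, exits_append, Finset.filter_union]; rfl

include hstep

/-- The shape of the return words. -/
lemma Ret_shape {N : ℤ} {y : Site d} (hy : h y = 0) {ρ : List (Dir d)} (hρ : ρ ∈ Ret h N y) :
    Vp h y ρ = ∅ ∨ ∃ u ρ', h (vec u) = 1 ∧ ρ = u :: ρ' ∧ ρ' ∈ EB (Dh h N) (Zh h) (y + vec u) ∧
      Vp h y ρ = exits (y + vec u) ρ' := by
  obtain ⟨h1, h2, h3⟩ := hρ
  cases ρ with
  | nil => simp at h2
  | cons u ρ' =>
    rw [nz_cons, if_pos hy] at h2
    have h4 : nz h (y + vec u) ρ' = 0 := by omega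
    have h5 := abs_le.1 (hstep u)
    have h6 : h (y + vec u) = h (vec u) := by rw [map_add, hy, zero_add]
    have hex : Vp h y (u :: ρ') = Vp h (y + vec u) ρ' := by
      rw [Vp, exits_cons, Finset.filter_insert, if_neg (by omega)]; rfl
    rcases lt_trichotomy (h (vec u)) 0 with h7 | h7 | h7
    · left
      obtain ⟨h8, _⟩ := stay_neg hstep h4 (by rw [h6]; exact h7)
      rw [hex, Vp, Finset.filter_eq_empty_iff]
      intro x hx
      have := h8 x hx
      omega
    · left
      cases ρ' with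
      | nil => rw [hex]; simp [Vp]
      | cons u' ρ' =>
        rw [nz_cons, if_pos (by rw [h6]; exact h7)] at h4
        omega
    · right
      have h9 : h (vec u) = 1 := by omega
      obtain ⟨h8, h10⟩ := stay_pos hstep h4 (by rw [h6]; exact h7)
      refine ⟨u, ρ', h9, rfl, ⟨fun x hx => ⟨h8 x hx, h3 x ?_⟩, ?_⟩, ?_⟩
      · rw [exits_cons]; exact Finset.mem_insert_of_mem hx
      · have : h (y + vec u + dsp ρ') = 0 := by rw [add_assoc, ← dsp_cons]; exact h1
        exact this.le
      · rw [hex, Vp, Finset.filter_true_of_mem h8]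

/-- The shape of the crossing words after their last departure from level zero. -/
lemma Cross_shape {N : ℤ} (hN : 0 < N) {c : List (Dir d)} (hc : ∀ x ∈ exits 0 c, h x < N)
    (hc2 : N ≤ h (dsp c)) (hc1 : 1 ≤ nz h 0 c) :
    ∃ a u c', h (vec u) = 1 ∧ c = a ++ u :: c' ∧ a ∈ Vis h N (nz h 0 c - 1) ∧
      c' ∈ EB (Dh h N) (Bh h N) (dsp a + vec u) := by
  obtain ⟨a, b, rfl, hb, h4, h5, h6⟩ := last_visit (h := h) (v := 0) (w := c) hc1
  rw [zero_add] at h4 h6
  cases b with
  | nil => exact absurd rfl hb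
  | cons u c' =>
    rw [nz_cons, if_pos h4] at h6
    have h7 : nz h (dsp a + vec u) c' = 0 := by omega
    have h8 : h (dsp a + vec u) = h (vec u) := by rw [map_add, h4, zero_add]
    have h9 : dsp (a ++ u :: c') = dsp a + vec u + dsp c' := by
      rw [dsp_append, dsp_cons, add_assoc]
    have h10 := abs_le.1 (hstep u)
    rw [h9] at hc2
    rcases lt_trichotomy (h (vec u)) 0 with h11 | h11 | h11
    · obtain ⟨_, h12⟩ := stay_neg hstep h7 (by rw [h8]; exact h11)
      omega
    · cases c' with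
      | nil => rw [dsp_nil, add_zero, h8] at hc2; omega
      | cons u' c' =>
        rw [nz_cons, if_pos (by rw [h8]; exact h11)] at h7
        omega
    · obtain ⟨h12, _⟩ := stay_pos hstep h7 (by rw [h8]; exact h11)
      refine ⟨a, u, c', by omega, rfl, ⟨h4, by omega, fun x hx => hc x ?_⟩,
        fun x hx => ⟨h12 x hx, hc x ?_⟩, hc2⟩
      · rw [exits_append]; exact Finset.mem_union_left _ hx
      · rw [exits_append, zero_add, exits_cons]
        exact Finset.mem_union_right _ (Finset.mem_insert_of_mem hx)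

end Vale.Agent.P147.Z
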