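import Vale.Agent.P147.H686.Osc1

/-! Doob's maximal inequality summed over a prefix free set of words. -/

open MeasureTheory Filter
open scoped ENNReal

namespace Vale.Agent.P147.Z

variable {d : ℕ}

lemma mem_wds {n : ℕ} {l : List (Dir d)} : l ∈ wds d n ↔ l.length = n := by
  induction n generalizing l with
  | zero => simp [wds, List.length_eq_zero_iff]
  | succ n ih =>
    rw [wds, Finset.mem_image]
    constructor
    · rintro ⟨⟨u, g⟩, hg, rfl⟩
      rw [Finset.mem_product] at hg
      simp only [List.length_cons]
      rw [ih.1 hg.2]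
    · intro hl
      cases l with
      | nil => simp at hl
      | cons u g =>
        refine ⟨(u, g), ?_, rfl⟩
        rw [Finset.mem_product]
        exact ⟨Finset.mem_univ _, ih.2 (by simpa using hl)⟩

lemma free_eq_of_append {T : Set (List (Dir d))} (hT : Free T) {a b a' b' : List (Dir d)}
    (ha : a ∈ T) (ha' : a' ∈ T) (h : a ++ b = a' ++ b') : a = a' ∧ b = b' := by
  rcases List.append_eq_append_iff.1 h with ⟨c, rfl, h2⟩ | ⟨c, rfl, h2⟩
  · have := hT a ha c ha'
    subst this
    simp at h2
    simp [h2]
  · have := hT a' ha' c ha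
    subst this
    simp at h2
    simp [h2]

/-- Sums over prefix free sets are dominated by sums over long words. -/
lemma tsum_free_le {T : Set (List (Dir d))} (hT : Free T) (ω : Env d) (v : Site d)
    (G H : List (Dir d) → ℝ≥0∞) (hGH : ∀ a ∈ T, ∀ b, G a ≤ H (a ++ b)) {c : ℝ≥0∞}
    (hc : ∀ k, ∑ g ∈ wds d k, qw ω v g * H g ≤ c) :
    ∑' l : T, qw ω v (l : List (Dir d)) * G l ≤ c := by
  classical
  rw [ENNReal.tsum_eq_iSup_sum]
  refine iSup_le fun s => ?_
  set k := s.sup fun l => (l : List (Dir d)).length with hk
  have hlen : ∀ l ∈ s, (l : List (Dir d)).length ≤ k := fun l hl =>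
    Finset.le_sup (f := fun l : T => (l : List (Dir d)).length) hl
  calc ∑ l ∈ s, qw ω v (l : List (Dir d)) * G l
      ≤ ∑ l ∈ s, ∑ g ∈ wds d (k - (l : List (Dir d)).length),
          qw ω v ((l : List (Dir d)) ++ g) * H (l ++ g) := by
        refine Finset.sum_le_sum fun l hl => ?_
        calc qw ω v (l : List (Dir d)) * G l
            = ∑ g ∈ wds d (k - (l : List (Dir d)).length),
                qw ω v (l : List (Dir d)) * qw ω (v + dsp (l : List (Dir d))) g * G l := by
              rw [← Finset.sum_mul, ← Finset.mul_sum, sum_qwds, mul_one]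
          _ ≤ _ := by
              refine Finset.sum_le_sum fun g _ => ?_
              rw [qw_append]
              gcongr
              exact hGH l l.2 g
    _ = ∑ p ∈ s.sigma (fun l => wds d (k - (l : List (Dir d)).length)),
          qw ω v ((p.1 : List (Dir d)) ++ p.2) * H (p.1 ++ p.2) := by
        rw [Finset.sum_sigma]
    _ = ∑ g ∈ (s.sigma (fun l => wds d (k - (l : List (Dir d)).length))).image
          (fun p => (p.1 : List (Dir d)) ++ p.2), qw ω v g * H g := by
        rw [Finset.sum_image]
        rintro ⟨⟨a, ha⟩, b⟩ _ ⟨⟨a', ha'⟩, b'⟩ _ h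
        obtain ⟨rfl, rfl⟩ := free_eq_of_append hT ha ha' h
        rfl
    _ ≤ ∑ g ∈ wds d k, qw ω v g * H g := by
        refine Finset.sum_le_sum_of_subset fun g hg => ?_
        rw [Finset.mem_image] at hg
        obtain ⟨⟨l, g'⟩, hp, rfl⟩ := hg
        rw [Finset.mem_sigma] at hp
        have h1 := hlen l hp.1
        have h2 := mem_wds.1 hp.2
        rw [mem_wds, List.length_append, h2]
        simp only at h1 ⊢
        omega
    _ ≤ c := hc k

lemma exits_subset_exD {D : Set (Site d)} (v : Site d) {a : List (Dir d)}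
    (ha : ∀ x ∈ exits v a, x ∈ D) (b : List (Dir d)) : exits v a ⊆ exD D v (a ++ b) := by
  induction a generalizing v with
  | nil => simp
  | cons u a ih =>
    rw [List.cons_append, exD_cons, if_pos (ha v (by rw [exits_cons]; simp)), exits_cons]
    refine Finset.insert_subset_insert _ (ih _ fun x hx => ha x ?_)
    rw [exits_cons]; exact Finset.mem_insert_of_mem hx

/-- Doob's maximal inequality for the exit probability, over the words that leave `D` in `Z`. -/
lemma doobEB {D B Z : Set (Site d)} (hDB : Disjoint D B) (hDZ : Disjoint D Z) (ω : Env d)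
    (v : Site d) {M : ℝ} (hM : 0 < M) (hM1 : M ≤ 1) :
    ∑' l : EB D Z v, qw ω v (l : List (Dir d)) *
        (exits v (l : List (Dir d))).sup (hB D B ω) ≤
      ENNReal.ofReal M + hB D B ω v * ENNReal.ofReal (Real.log (1 / M)) := by
  refine tsum_free_le (EB_free hDZ v) ω v (fun l => (exits v l).sup (hB D B ω))
    (fun l => max (ENNReal.ofReal M) ((exD D v l).sup (hB D B ω))) (fun a ha b => ?_)
    (fun k => doob hDB ω k v hM hM1)
  exact le_max_of_le_right (Finset.sup_mono (exits_subset_exD v ha.1 b))

end Vale.Agent.P147.Z
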