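import Vale.Agent.P147.H686.Osc2

/-! The recursion over the visits to level zero. -/

open MeasureTheory Filter
open scoped ENNReal

namespace Vale.Agent.P147.Z

variable {d : ℕ} {h : Site d →+ ℤ}

/-- Sum of the exit probabilities over the upward neighbours of `y`. -/
noncomputable def upE (h : Site d →+ ℤ) (N : ℤ) (ω : Env d) (y : Site d) : ℝ≥0∞ :=
  ∑ u ∈ (Finset.univ : Finset (Dir d)).filter (fun u => h (vec u) = 1),
    hB (Dh h N) (Bh h N) ω (y + vec u)

/-- The largest exit probability over the sites of positive level seen by the word. -/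
noncomputable def mx (h : Site d →+ ℤ) (N : ℤ) (ω : Env d) (v : Site d) (l : List (Dir d)) :
    ℝ≥0∞ := (Vp h v l).sup (hB (Dh h N) (Bh h N) ω)

lemma mx_append (N : ℤ) (ω : Env d) (v : Site d) (a b : List (Dir d)) :
    mx h N ω v (a ++ b) ≤ mx h N ω v a + mx h N ω (v + dsp a) b := by
  rw [mx, Vp_append, Finset.sup_union]
  exact max_le_add_of_nonneg zero_le zero_le

variable (hstep : ∀ u : Dir d, |h (vec u)| ≤ 1)
include hstep

/-- The maximum over one return word. -/
lemma ret_mx {N : ℤ} (ω : Env d) {y : Site d} (hy : h y = 0) {M : ℝ} (hM : 0 < M)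
    (hM1 : M ≤ 1) :
    ∑' ρ : Ret h N y, qw ω y (ρ : List (Dir d)) * mx h N ω y ρ ≤
      ENNReal.ofReal M + upE h N ω y * ENNReal.ofReal (Real.log (1 / M)) := by
  classical
  set U := (Finset.univ : Finset (Dir d)).filter (fun u => h (vec u) = 1) with hU
  -- the words with nonempty set of positive sites
  have h1 : ∑' ρ : Ret h N y, qw ω y (ρ : List (Dir d)) * mx h N ω y ρ ≤
      ∑' p : (Σ u : U, EB (Dh h N) (Zh h) (y + vec (u : Dir d))),
        qw ω y ((p.1 : Dir d) :: (p.2 : List (Dir d))) *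
          (exits (y + vec (p.1 : Dir d)) (p.2 : List (Dir d))).sup (hB (Dh h N) (Bh h N) ω) := by
    have e1 : ∑' ρ : Ret h N y, qw ω y (ρ : List (Dir d)) * mx h N ω y ρ =
        ∑' ρ : {ρ : Ret h N y // Vp h y (ρ : List (Dir d)) ≠ ∅},
          qw ω y (ρ.1 : List (Dir d)) * mx h N ω y ρ.1 := by
      rw [show (∑' ρ : {ρ : Ret h N y // Vp h y (ρ : List (Dir d)) ≠ ∅},
          qw ω y (ρ.1 : List (Dir d)) * mx h N ω y ρ.1) =
          ∑' ρ : ({ρ : Ret h N y | Vp h y (ρ : List (Dir d)) ≠ ∅} : Set (Ret h N y)),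
          (fun ρ : Ret h N y => qw ω y (ρ : List (Dir d)) * mx h N ω y ρ) ρ from rfl,
        tsum_subtype ({ρ : Ret h N y | Vp h y (ρ : List (Dir d)) ≠ ∅} : Set (Ret h N y))
          (fun ρ : Ret h N y => qw ω y (ρ : List (Dir d)) * mx h N ω y ρ)]
      refine tsum_congr fun ρ => ?_
      rw [Set.indicator_apply]
      split_ifs with hc
      · rfl
      · have : Vp h y (ρ : List (Dir d)) = ∅ := by
          by_contra hcon
          exact hc hcon
        rw [mx, this, Finset.sup_empty]
        simp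
    rw [e1]
    have hdec : ∀ ρ : {ρ : Ret h N y // Vp h y (ρ : List (Dir d)) ≠ ∅},
        ∃ p : (Σ u : U, EB (Dh h N) (Zh h) (y + vec (u : Dir d))),
          (p.1 : Dir d) :: (p.2 : List (Dir d)) = ρ.1 ∧
            Vp h y (ρ.1 : List (Dir d)) = exits (y + vec (p.1 : Dir d)) (p.2 : List (Dir d)) := by
      rintro ⟨⟨ρ, hρ⟩, hne⟩
      rcases Ret_shape hstep hy hρ with h2 | ⟨u, ρ', h2, h3, h4, h5⟩
      · exact absurd h2 hne
      · exact ⟨⟨⟨u, by rw [hU, Finset.mem_filter]; exact ⟨Finset.mem_univ _, h2⟩⟩, ⟨ρ', h4⟩⟩,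
          h3.symm, h5⟩
    choose f hf hf2 using hdec
    have hinj : Function.Injective f := by
      intro ρ ρ' hh
      apply Subtype.ext
      apply Subtype.ext
      rw [← hf ρ, ← hf ρ', hh]
    calc _ = ∑' ρ : {ρ : Ret h N y // Vp h y (ρ : List (Dir d)) ≠ ∅},
          (fun p : (Σ u : U, EB (Dh h N) (Zh h) (y + vec (u : Dir d))) =>
            qw ω y ((p.1 : Dir d) :: (p.2 : List (Dir d))) *
          (exits (y + vec (p.1 : Dir d)) (p.2 : List (Dir d))).sup (hB (Dh h N) (Bh h N) ω))
            (f ρ) := by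
          refine tsum_congr fun ρ => ?_
          simp only [hf ρ, mx, hf2 ρ]
      _ ≤ _ := ENNReal.tsum_comp_le_tsum_of_injective hinj _
  refine h1.trans ?_
  rw [ENNReal.tsum_sigma' (fun p : (Σ u : U, EB (Dh h N) (Zh h) (y + vec (u : Dir d))) =>
        qw ω y ((p.1 : Dir d) :: (p.2 : List (Dir d))) *
          (exits (y + vec (p.1 : Dir d)) (p.2 : List (Dir d))).sup (hB (Dh h N) (Bh h N) ω)),
    tsum_fintype]
  calc ∑ u : U, ∑' l : EB (Dh h N) (Zh h) (y + vec (u : Dir d)),
        qw ω y ((u : Dir d) :: (l : List (Dir d))) *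
          (exits (y + vec (u : Dir d)) (l : List (Dir d))).sup (hB (Dh h N) (Bh h N) ω)
      ≤ ∑ u : U, ENNReal.ofReal ((ω y).1 (u : Dir d)) * (ENNReal.ofReal M +
          upE h N ω y * ENNReal.ofReal (Real.log (1 / M))) := by
        refine Finset.sum_le_sum fun u _ => ?_
        simp only [qw_cons, mul_assoc]
        rw [ENNReal.tsum_mul_left]
        gcongr
        refine (doobEB (disj_DB N) (disj_DZ N) ω (y + vec (u : Dir d)) hM hM1).trans ?_
        gcongr
        rw [upE]
        exact Finset.single_le_sum (f := fun u => hB (Dh h N) (Bh h N) ω (y + vec u))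
          (fun _ _ => zero_le) u.2
    _ ≤ ∑ u : Dir d, ENNReal.ofReal ((ω y).1 u) * (ENNReal.ofReal M +
          upE h N ω y * ENNReal.ofReal (Real.log (1 / M))) := by
        rw [Finset.sum_coe_sort U (fun u => ENNReal.ofReal ((ω y).1 u) * (ENNReal.ofReal M +
          upE h N ω y * ENNReal.ofReal (Real.log (1 / M))))]
        exact Finset.sum_le_sum_of_subset (Finset.subset_univ _)
    _ = _ := by rw [← Finset.sum_mul, sum_rowZ, one_mul]

/-- One step of the recursion, quenched. -/
lemma vis_succ_le {N : ℤ} (ω : Env d) (i : ℕ) {M : ℝ} (hM : 0 < M) (hM1 : M ≤ 1) :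
    ∑' π : Vis h N (i + 1), qw ω 0 (π : List (Dir d)) * mx h N ω 0 π ≤
      ∑' π : Vis h N i, qw ω 0 (π : List (Dir d)) * (mx h N ω 0 π + ENNReal.ofReal M +
        upE h N ω (dsp (π : List (Dir d))) * ENNReal.ofReal (Real.log (1 / M))) := by
  have hdec : ∀ π : Vis h N (i + 1), ∃ p : (Σ a : Vis h N i, Ret h N (dsp (a : List (Dir d)))),
      (π : List (Dir d)) = (p.1 : List (Dir d)) ++ p.2 := by
    rintro ⟨π, hπ⟩
    obtain ⟨a, ha, b, hb, hab⟩ := Vis_succ hπ
    exact ⟨⟨⟨a, ha⟩, ⟨b, hb⟩⟩, hab⟩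
  choose f hf using hdec
  have hinj : Function.Injective f := by
    intro π π' hh
    apply Subtype.ext
    rw [hf π, hf π', hh]
  calc ∑' π : Vis h N (i + 1), qw ω 0 (π : List (Dir d)) * mx h N ω 0 π
      = ∑' π : Vis h N (i + 1), (fun p : (Σ a : Vis h N i, Ret h N (dsp (a : List (Dir d)))) =>
          qw ω 0 ((p.1 : List (Dir d)) ++ p.2) *
            mx h N ω 0 ((p.1 : List (Dir d)) ++ p.2)) (f π) := by
        refine tsum_congr fun π => ?_
        simp only [← hf π]
    _ ≤ ∑' p : (Σ a : Vis h N i, Ret h N (dsp (a : List (Dir d)))),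
          qw ω 0 ((p.1 : List (Dir d)) ++ p.2) *
            mx h N ω 0 ((p.1 : List (Dir d)) ++ p.2) :=
        ENNReal.tsum_comp_le_tsum_of_injective hinj _
    _ = ∑' a : Vis h N i, ∑' b : Ret h N (dsp (a : List (Dir d))),
          qw ω 0 ((a : List (Dir d)) ++ b) *
            mx h N ω 0 ((a : List (Dir d)) ++ b) := ENNReal.tsum_sigma' _
    _ ≤ _ := by
        refine ENNReal.tsum_le_tsum fun a => ?_
        have ha : h (dsp (a : List (Dir d))) = 0 := a.2.1
        calc ∑' b : Ret h N (dsp (a : List (Dir d))),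
              qw ω 0 ((a : List (Dir d)) ++ b) * mx h N ω 0 ((a : List (Dir d)) ++ b)
            ≤ ∑' b : Ret h N (dsp (a : List (Dir d))), qw ω 0 (a : List (Dir d)) *
                (qw ω (dsp (a : List (Dir d))) b * mx h N ω 0 a +
                  qw ω (dsp (a : List (Dir d))) b * mx h N ω (dsp (a : List (Dir d))) b) := by
              refine ENNReal.tsum_le_tsum fun b => ?_
              have := mx_append (h := h) N ω 0 (a : List (Dir d)) b
              rw [zero_add] at this
              rw [qw_append, zero_add, ← mul_add, mul_assoc]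
              gcongr
          _ = qw ω 0 (a : List (Dir d)) *
                ((∑' b : Ret h N (dsp (a : List (Dir d))), qw ω (dsp (a : List (Dir d))) b) *
                  mx h N ω 0 a +
                ∑' b : Ret h N (dsp (a : List (Dir d))),
                  qw ω (dsp (a : List (Dir d))) b * mx h N ω (dsp (a : List (Dir d))) b) := by
              rw [ENNReal.tsum_mul_left, ENNReal.tsum_add, ENNReal.tsum_mul_right]
          _ ≤ qw ω 0 (a : List (Dir d)) * (1 * mx h N ω 0 a + (ENNReal.ofReal M +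
                upE h N ω (dsp (a : List (Dir d))) * ENNReal.ofReal (Real.log (1 / M)))) := by
              gcongr
              · exact tsum_qw_le_one (Ret_free N ha) ω _
              · exact ret_mx hstep ω ha hM hM1
          _ = _ := by rw [one_mul, add_assoc]

end Vale.Agent.P147.Z
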