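import Vale.Agent.P147.H686.Osc3

/-! The recursion, integrated over the environment; the environment below level zero enters
through an arbitrary weight. -/

open MeasureTheory Filter
open scoped ENNReal

namespace Vale.Agent.P147.Z

variable {d : ℕ} {h : Site d →+ ℤ}

lemma lint_mul_loc (μ : Measure (Row d)) [IsProbabilityMeasure μ] {S T : Set (Site d)}
    (hST : Disjoint S T) {F G : Env d → ℝ≥0∞} (hF : Measurable F) (hG : Measurable G)
    (hFl : ∀ ω ω' : Env d, (∀ y ∈ S, ω y = ω' y) → F ω = F ω')
    (hGl : ∀ ω ω' : Env d, (∀ y ∈ T, ω y = ω' y) → G ω = G ω') :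
    ∫⁻ ω, F ω * G ω ∂(envLaw μ) = (∫⁻ ω, F ω ∂(envLaw μ)) * ∫⁻ ω, G ω ∂(envLaw μ) := by
  have : Nonempty (Row d) := nonempty_of_isProbabilityMeasure μ
  exact ProbabilityTheory.lintegral_mul_eq_lintegral_mul_lintegral_of_independent_measurableSpace
    (freshAlg_le _) (freshAlg_le _) (freshAlg_indep μ hST) (freshAlg_measurable hF hFl)
    (freshAlg_measurable hG hGl)

lemma EB_shift {N : ℤ} {y z : Site d} (hy : h y = 0) :
    EB (Dh h N) (Bh h N) (y + z) = EB (Dh h N) (Bh h N) z := by
  ext l
  have e : ∀ x : Site d, h (x + y) = h x := fun x => by rw [map_add, hy, add_zero]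
  simp only [EB, Set.mem_ofPred_eq, Dh, Bh]
  rw [add_comm y z, exits_add]
  constructor
  · rintro ⟨h1, h2⟩
    refine ⟨fun x hx => ?_, ?_⟩
    · have := h1 (x + y) (Finset.mem_image_of_mem _ hx)
      rwa [e] at this
    · have h3 : z + y + dsp l = (z + dsp l) + y := by abel
      rw [h3] at h2
      rwa [e] at h2
  · rintro ⟨h1, h2⟩
    refine ⟨fun x hx => ?_, ?_⟩
    · obtain ⟨x', hx', rfl⟩ := Finset.mem_image.1 hx
      rw [e]; exact h1 x' hx'
    · have h3 : z + y + dsp l = (z + dsp l) + y := by abel
      rw [h3, e]; exact h2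

variable (μ : Measure (Row d)) [IsProbabilityMeasure μ]

/-- Dependence on the environment below level zero only. -/
def LowLoc (h : Site d →+ ℤ) (F : Env d → ℝ≥0∞) : Prop :=
  ∀ ω ω' : Env d, (∀ y, h y < 0 → ω y = ω' y) → F ω = F ω'

lemma measurable_mx (N : ℤ) (v : Site d) (l : List (Dir d)) :
    Measurable (fun ω : Env d => mx h N ω v l) := by
  unfold mx
  induction Vp h v l using Finset.induction_on with
  | empty => simp
  | insert a s ha ih =>
    simp only [Finset.sup_insert]
    exact (measurable_hB _ _ a).sup ih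

lemma measurable_upE (N : ℤ) (y : Site d) : Measurable (fun ω : Env d => upE h N ω y) := by
  unfold upE
  exact Finset.measurable_sum _ fun u _ => measurable_hB _ _ _

/-- Exit paths that avoid the sites seen so far see a fresh environment. -/
lemma avoid {N : ℤ} {F : Env d → ℝ≥0∞} (hF : Measurable F) (hFl : LowLoc h F)
    {π : List (Dir d)} {y : Site d} {c : List (Dir d)}
    (hc : ∀ x ∈ exits y c, x ∈ Dh h N) (hd : Disjoint (exits y c) (Vp h 0 π)) :
    ∫⁻ ω, F ω * qw ω 0 π * qw ω y c ∂(envLaw μ) =
      (∫⁻ ω, F ω * qw ω 0 π ∂(envLaw μ)) * wt μ c := by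
  rw [← lintegral_qw μ y c]
  refine lint_mul_loc μ (S := {x | h x < 0 ∨ x ∈ exits 0 π}) (T := {x | x ∈ exits y c}) ?_
    (hF.mul (measurable_qw 0 π)) (measurable_qw y c) ?_ ?_
  · rw [Set.disjoint_left]
    rintro x hx (hx2 : x ∈ exits y c)
    have h1 := (hc x hx2).1
    rcases hx with hx | hx
    · omega
    · exact (Finset.disjoint_left.1 hd) hx2 (by rw [Vp, Finset.mem_filter]; exact ⟨hx, h1⟩)
  · intro ω ω' hω
    rw [hFl ω ω' fun x hx => hω x (Or.inl hx), qw_congr fun x hx => hω x (Or.inr hx)]
  · intro ω ω' hω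
    exact qw_congr fun x hx => hω x hx

/-- The exit probability from an upward neighbour, after `i` visits. -/
lemma up_le {N : ℤ} {i : ℕ} {b α : ℝ≥0∞} {u : Dir d}
    (hα : ∫⁻ ω, hB (Dh h N) (Bh h N) ω (vec u) ∂(envLaw μ) ≤ α)
    (hb : ∀ F : Env d → ℝ≥0∞, Measurable F → LowLoc h F →
      ∫⁻ ω, F ω * ∑' π : Vis h N i, qw ω 0 (π : List (Dir d)) * mx h N ω 0 π ∂(envLaw μ) ≤
        b * ∫⁻ ω, F ω ∂(envLaw μ))
    {F : Env d → ℝ≥0∞} (hF : Measurable F) (hFl : LowLoc h F) :
    ∫⁻ ω, F ω * ∑' π : Vis h N i, qw ω 0 (π : List (Dir d)) *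
        hB (Dh h N) (Bh h N) ω (dsp (π : List (Dir d)) + vec u) ∂(envLaw μ) ≤
      (α + b) * ∫⁻ ω, F ω ∂(envLaw μ) := by
  classical
  -- the two kinds of exit paths
  have h1 : ∀ (ω : Env d) (π : Vis h N i),
      hB (Dh h N) (Bh h N) ω (dsp (π : List (Dir d)) + vec u) ≤
      (∑' c : EB (Dh h N) (Bh h N) (dsp (π : List (Dir d)) + vec u),
        qw ω (dsp (π : List (Dir d)) + vec u) (c : List (Dir d)) *
          (if Disjoint (exits (dsp (π : List (Dir d)) + vec u) (c : List (Dir d))) (Vp h 0 π)
            then 1 else 0)) + mx h N ω 0 π := by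
    intro ω π
    set y := dsp (π : List (Dir d)) + vec u with hy
    have h2 := meet_le (D := Dh h N) (B := Bh h N) ω y (Vp h 0 π) (T := EB (Dh h N) (Bh h N) y)
      subset_rfl (fun c => ¬ Disjoint (exits y c) (Vp h 0 π)) (fun l _ hl => hl)
    calc hB (Dh h N) (Bh h N) ω y
        = ∑' c : EB (Dh h N) (Bh h N) y, (qw ω y (c : List (Dir d)) *
            (if Disjoint (exits y (c : List (Dir d))) (Vp h 0 π) then 1 else 0) +
          qw ω y (c : List (Dir d)) *
            (if ¬ Disjoint (exits y (c : List (Dir d))) (Vp h 0 π) then 1 else 0)) := by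
          rw [hB]
          refine tsum_congr fun c => ?_
          by_cases hc : Disjoint (exits y (c : List (Dir d))) (Vp h 0 π) <;> simp [hc]
      _ ≤ _ := by
          rw [ENNReal.tsum_add]
          gcongr
          exact h2
  have hm1 : ∀ π : List (Dir d), Measurable fun ω : Env d =>
      qw ω 0 π * ∑' c : EB (Dh h N) (Bh h N) (dsp π + vec u),
        qw ω (dsp π + vec u) (c : List (Dir d)) *
          (if Disjoint (exits (dsp π + vec u) (c : List (Dir d))) (Vp h 0 π) then 1 else 0) :=
    fun π => (measurable_qw 0 π).mul (Measurable.tsum fun c =>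
      (measurable_qw _ _).mul measurable_const)
  have hA : ∫⁻ ω, F ω * ∑' π : Vis h N i, qw ω 0 (π : List (Dir d)) *
      (∑' c : EB (Dh h N) (Bh h N) (dsp (π : List (Dir d)) + vec u),
        qw ω (dsp (π : List (Dir d)) + vec u) (c : List (Dir d)) *
          (if Disjoint (exits (dsp (π : List (Dir d)) + vec u) (c : List (Dir d))) (Vp h 0 π)
            then 1 else 0)) ∂(envLaw μ) ≤ α * ∫⁻ ω, F ω ∂(envLaw μ) := by
    calc _ = ∑' π : Vis h N i, ∑' c : EB (Dh h N) (Bh h N) (dsp (π : List (Dir d)) + vec u),
          (∫⁻ ω, F ω * qw ω 0 (π : List (Dir d)) *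
            qw ω (dsp (π : List (Dir d)) + vec u) (c : List (Dir d)) ∂(envLaw μ)) *
          (if Disjoint (exits (dsp (π : List (Dir d)) + vec u) (c : List (Dir d))) (Vp h 0 π)
            then 1 else 0) := by
          simp_rw [← ENNReal.tsum_mul_left]
          rw [lintegral_tsum]
          · refine tsum_congr fun π => ?_
            rw [lintegral_tsum]
            · refine tsum_congr fun c => ?_
              rw [← lintegral_mul_const']
              · refine lintegral_congr fun ω => ?_
                ring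
              · split_ifs <;> simp
            · intro c
              exact (hF.mul ((measurable_qw 0 _).mul ((measurable_qw _ _).mul
                measurable_const))).aemeasurable
          · intro π
            exact (Measurable.tsum fun c => hF.mul ((measurable_qw 0 _).mul
              ((measurable_qw _ _).mul measurable_const))).aemeasurable
      _ ≤ ∑' π : Vis h N i, (∫⁻ ω, F ω * qw ω 0 (π : List (Dir d)) ∂(envLaw μ)) * α := by
          refine ENNReal.tsum_le_tsum fun π => ?_
          have hπ : h (dsp (π : List (Dir d))) = 0 := π.2.1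
          calc _ ≤ ∑' c : EB (Dh h N) (Bh h N) (dsp (π : List (Dir d)) + vec u),
                (∫⁻ ω, F ω * qw ω 0 (π : List (Dir d)) ∂(envLaw μ)) * wt μ c := by
                refine ENNReal.tsum_le_tsum fun c => ?_
                by_cases hc : Disjoint (exits (dsp (π : List (Dir d)) + vec u)
                    (c : List (Dir d))) (Vp h 0 π)
                · rw [if_pos hc, mul_one, avoid μ hF hFl c.2.1 hc]
                · rw [if_neg hc, mul_zero]; exact zero_le
            _ = (∫⁻ ω, F ω * qw ω 0 (π : List (Dir d)) ∂(envLaw μ)) *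
                ∑' c : EB (Dh h N) (Bh h N) (dsp (π : List (Dir d)) + vec u), wt μ c := by
                rw [ENNReal.tsum_mul_left]
            _ ≤ _ := by
                gcongr
                rw [EB_shift hπ]
                refine le_trans (le_of_eq ?_) hα
                simp only [hB]
                rw [lintegral_tsum fun c => (measurable_qw _ _).aemeasurable]
                refine tsum_congr fun c => ?_
                rw [lintegral_qw]
      _ = (∫⁻ ω, F ω * ∑' π : Vis h N i, qw ω 0 (π : List (Dir d)) ∂(envLaw μ)) * α := by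
          rw [ENNReal.tsum_mul_right]
          congr 1
          simp_rw [← ENNReal.tsum_mul_left]
          exact (lintegral_tsum (f := fun (π : Vis h N i) (ω : Env d) =>
            F ω * qw ω 0 (π : List (Dir d)))
            fun π => (hF.mul (measurable_qw 0 _)).aemeasurable).symm
      _ ≤ (∫⁻ ω, F ω * 1 ∂(envLaw μ)) * α := by
          gcongr with ω
          exact tsum_qw_le_one (Vis_free N i) ω 0
      _ = _ := by simp only [mul_one, mul_comm]
  calc ∫⁻ ω, F ω * ∑' π : Vis h N i, qw ω 0 (π : List (Dir d)) *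
        hB (Dh h N) (Bh h N) ω (dsp (π : List (Dir d)) + vec u) ∂(envLaw μ)
      ≤ ∫⁻ ω, (F ω * ∑' π : Vis h N i, qw ω 0 (π : List (Dir d)) *
      (∑' c : EB (Dh h N) (Bh h N) (dsp (π : List (Dir d)) + vec u),
        qw ω (dsp (π : List (Dir d)) + vec u) (c : List (Dir d)) *
          (if Disjoint (exits (dsp (π : List (Dir d)) + vec u) (c : List (Dir d))) (Vp h 0 π)
            then 1 else 0))) + F ω * ∑' π : Vis h N i, qw ω 0 (π : List (Dir d)) *
              mx h N ω 0 π ∂(envLaw μ) := by
        refine lintegral_mono fun ω => ?_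
        beta_reduce
        rw [← mul_add, ← ENNReal.tsum_add]
        gcongr with π
        rw [← mul_add]
        gcongr
        exact h1 ω π
    _ = _ + _ := by
        rw [lintegral_add_left]
        exact hF.mul (Measurable.tsum fun π => hm1 _)
    _ ≤ α * ∫⁻ ω, F ω ∂(envLaw μ) + b * ∫⁻ ω, F ω ∂(envLaw μ) := by
        gcongr
        exact hb F hF hFl
    _ = _ := by rw [add_mul]

end Vale.Agent.P147.Z
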