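import Vale.Agent.P147.H686.Osc4

/-! A bounded number of visits to level zero before a high level is unlikely. -/

open MeasureTheory Filter
open scoped ENNReal

namespace Vale.Agent.P147.Z

variable {d : ℕ} {h : Site d →+ ℤ}

lemma small_mul {a δ : ℝ≥0∞} (ha : a ≠ ⊤) (hδ : δ ≠ 0) : ∃ ε : ℝ≥0∞, ε ≠ 0 ∧ ε * a ≤ δ := by
  by_cases hδt : δ = ⊤
  · exact ⟨1, one_ne_zero, by rw [hδt]; exact le_top⟩
  by_cases ha0 : a = 0
  · exact ⟨1, one_ne_zero, by rw [ha0, mul_zero]; exact zero_le⟩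
  · refine ⟨δ / a, (ENNReal.div_pos hδ ha).ne', ?_⟩
    rw [ENNReal.div_mul_cancel ha0 ha]

variable (μ : Measure (Row d)) [IsProbabilityMeasure μ]

/-- The bound on the expected maximum after `i` visits. -/
def VB (h : Site d →+ ℤ) (N : ℤ) (i : ℕ) (b : ℝ≥0∞) : Prop :=
  ∀ F : Env d → ℝ≥0∞, Measurable F → LowLoc h F →
      ∫⁻ ω, F ω * ∑' π : Vis h N i, qw ω 0 (π : List (Dir d)) * mx h N ω 0 π ∂(envLaw μ) ≤
        b * ∫⁻ ω, F ω ∂(envLaw μ)

lemma upE_le {N : ℤ} {i : ℕ} {b α : ℝ≥0∞}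
    (hα : ∀ u : Dir d, h (vec u) = 1 → ∫⁻ ω, hB (Dh h N) (Bh h N) ω (vec u) ∂(envLaw μ) ≤ α)
    (hb : VB μ h N i b) {F : Env d → ℝ≥0∞} (hF : Measurable F) (hFl : LowLoc h F) :
    ∫⁻ ω, F ω * ∑' π : Vis h N i, qw ω 0 (π : List (Dir d)) *
        upE h N ω (dsp (π : List (Dir d))) ∂(envLaw μ) ≤
      (Fintype.card (Dir d) : ℝ≥0∞) * (α + b) * ∫⁻ ω, F ω ∂(envLaw μ) := by
  classical
  have e1 : ∀ ω : Env d, F ω * ∑' π : Vis h N i, qw ω 0 (π : List (Dir d)) *
        upE h N ω (dsp (π : List (Dir d))) =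
      ∑ u ∈ (Finset.univ : Finset (Dir d)).filter (fun u => h (vec u) = 1),
        F ω * ∑' π : Vis h N i, qw ω 0 (π : List (Dir d)) *
          hB (Dh h N) (Bh h N) ω (dsp (π : List (Dir d)) + vec u) := by
    intro ω
    rw [← Finset.mul_sum, ← Summable.tsum_finsetSum fun _ _ => ENNReal.summable]
    congr 1
    refine tsum_congr fun π => ?_
    rw [upE, Finset.mul_sum]
  simp_rw [e1]
  rw [lintegral_finsetSum]
  · calc _ ≤ ∑ u ∈ (Finset.univ : Finset (Dir d)).filter (fun u => h (vec u) = 1),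
          (α + b) * ∫⁻ ω, F ω ∂(envLaw μ) := by
          refine Finset.sum_le_sum fun u hu => ?_
          exact up_le μ (hα u (Finset.mem_filter.1 hu).2) hb hF hFl
      _ ≤ ∑ u : Dir d, (α + b) * ∫⁻ ω, F ω ∂(envLaw μ) :=
          Finset.sum_le_sum_of_subset (Finset.subset_univ _)
      _ = _ := by
          rw [Finset.sum_const, nsmul_eq_mul, mul_assoc, Finset.card_univ]
  · intro u _
    exact hF.mul (Measurable.tsum fun π => (measurable_qw 0 _).mul (measurable_hB _ _ _))

variable (hstep : ∀ u : Dir d, |h (vec u)| ≤ 1)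
include hstep

lemma VB_succ {N : ℤ} {i : ℕ} {b α : ℝ≥0∞} {M : ℝ} (hM : 0 < M) (hM1 : M ≤ 1)
    (hα : ∀ u : Dir d, h (vec u) = 1 → ∫⁻ ω, hB (Dh h N) (Bh h N) ω (vec u) ∂(envLaw μ) ≤ α)
    (hb : VB μ h N i b) :
    VB μ h N (i + 1) (b + ENNReal.ofReal M + (Fintype.card (Dir d) : ℝ≥0∞) * (α + b) *
      ENNReal.ofReal (Real.log (1 / M))) := by
  intro F hF hFl
  have hm1 : Measurable fun ω : Env d =>
      F ω * ∑' π : Vis h N i, qw ω 0 (π : List (Dir d)) * mx h N ω 0 π :=
    hF.mul (Measurable.tsum fun π => (measurable_qw 0 _).mul (measurable_mx N 0 _))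
  have hm2 : Measurable fun ω : Env d => F ω * ENNReal.ofReal M := hF.mul measurable_const
  have hm12 : Measurable fun ω : Env d =>
      F ω * ∑' π : Vis h N i, qw ω 0 (π : List (Dir d)) * mx h N ω 0 π +
        F ω * ENNReal.ofReal M := hm1.add hm2
  calc ∫⁻ ω, F ω * ∑' π : Vis h N (i + 1), qw ω 0 (π : List (Dir d)) * mx h N ω 0 π ∂(envLaw μ)
      ≤ ∫⁻ ω, (F ω * ∑' π : Vis h N i, qw ω 0 (π : List (Dir d)) * mx h N ω 0 π +
          F ω * ENNReal.ofReal M) +
          (F ω * ∑' π : Vis h N i, qw ω 0 (π : List (Dir d)) *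
            upE h N ω (dsp (π : List (Dir d)))) * ENNReal.ofReal (Real.log (1 / M))
          ∂(envLaw μ) := by
        refine lintegral_mono fun ω => ?_
        beta_reduce
        calc F ω * ∑' π : Vis h N (i + 1), qw ω 0 (π : List (Dir d)) * mx h N ω 0 π
            ≤ F ω * ∑' π : Vis h N i, qw ω 0 (π : List (Dir d)) * (mx h N ω 0 π +
                ENNReal.ofReal M + upE h N ω (dsp (π : List (Dir d))) *
                  ENNReal.ofReal (Real.log (1 / M))) := by
              gcongr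
              exact vis_succ_le hstep ω i hM hM1
          _ = F ω * ((∑' π : Vis h N i, qw ω 0 (π : List (Dir d)) * mx h N ω 0 π) +
              (∑' π : Vis h N i, qw ω 0 (π : List (Dir d))) * ENNReal.ofReal M +
              (∑' π : Vis h N i, qw ω 0 (π : List (Dir d)) *
                upE h N ω (dsp (π : List (Dir d)))) * ENNReal.ofReal (Real.log (1 / M))) := by
              rw [← ENNReal.tsum_mul_right, ← ENNReal.tsum_mul_right, ← ENNReal.tsum_add,
                ← ENNReal.tsum_add]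
              congr 1
              refine tsum_congr fun π => ?_
              ring
          _ ≤ F ω * ((∑' π : Vis h N i, qw ω 0 (π : List (Dir d)) * mx h N ω 0 π) +
              1 * ENNReal.ofReal M +
              (∑' π : Vis h N i, qw ω 0 (π : List (Dir d)) *
                upE h N ω (dsp (π : List (Dir d)))) * ENNReal.ofReal (Real.log (1 / M))) := by
              gcongr
              exact tsum_qw_le_one (Vis_free N i) ω 0
          _ = _ := by ring
    _ = (∫⁻ ω, F ω * ∑' π : Vis h N i, qw ω 0 (π : List (Dir d)) * mx h N ω 0 π ∂(envLaw μ)) +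
          (∫⁻ ω, F ω ∂(envLaw μ)) * ENNReal.ofReal M +
          (∫⁻ ω, F ω * ∑' π : Vis h N i, qw ω 0 (π : List (Dir d)) *
            upE h N ω (dsp (π : List (Dir d))) ∂(envLaw μ)) *
              ENNReal.ofReal (Real.log (1 / M)) := by
        rw [lintegral_add_left hm12, lintegral_add_left hm1,
          lintegral_mul_const' _ _ ENNReal.ofReal_ne_top,
          lintegral_mul_const' _ _ ENNReal.ofReal_ne_top]
    _ ≤ b * (∫⁻ ω, F ω ∂(envLaw μ)) + (∫⁻ ω, F ω ∂(envLaw μ)) * ENNReal.ofReal M +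
          ((Fintype.card (Dir d) : ℝ≥0∞) * (α + b) * ∫⁻ ω, F ω ∂(envLaw μ)) *
              ENNReal.ofReal (Real.log (1 / M)) := by
        gcongr
        · exact hb F hF hFl
        · exact upE_le μ hα hb hF hFl
    _ = _ := by ring

omit [IsProbabilityMeasure μ] hstep in
lemma VB_mono {N : ℤ} {i : ℕ} {b b' : ℝ≥0∞} (hbb : b ≤ b') (hb : VB μ h N i b) :
    VB μ h N i b' := fun F hF hFl => (hb F hF hFl).trans (by gcongr)

/-- The expected maximum after `i` visits is small when the exit probability is small. -/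
theorem VB_small (i : ℕ) (ε : ℝ≥0∞) (hε : ε ≠ 0) : ∃ α : ℝ≥0∞, α ≠ 0 ∧ ∀ N : ℤ,
    (∀ u : Dir d, h (vec u) = 1 → ∫⁻ ω, hB (Dh h N) (Bh h N) ω (vec u) ∂(envLaw μ) ≤ α) →
      VB μ h N i ε := by
  induction i generalizing ε with
  | zero =>
    refine ⟨1, one_ne_zero, fun N _ F hF hFl => ?_⟩
    have e : ∀ (ω : Env d) (π : Vis h N 0), mx h N ω 0 π = 0 := by
      rintro ω ⟨π, hπ⟩
      have h1 := hπ.2.1
      cases π with
      | nil => simp [mx, Vp]
      | cons u π => rw [nz_cons, if_pos (map_zero h)] at h1; omega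
    simp only [e, mul_zero, tsum_zero, lintegral_zero]
    exact zero_le
  | succ i ih =>
    -- the choice of the constants
    obtain ⟨M, hM, hM1, hMε⟩ : ∃ M : ℝ, 0 < M ∧ M ≤ 1 ∧ ENNReal.ofReal M ≤ ε / 3 := by
      have h3 : ε / 3 ≠ 0 := (ENNReal.div_pos hε (by norm_num)).ne'
      by_cases ht : ε / 3 = ⊤
      · exact ⟨1, one_pos, le_rfl, by rw [ht]; exact le_top⟩
      · refine ⟨min 1 (ε / 3).toReal, lt_min one_pos (ENNReal.toReal_pos h3 ht), min_le_left _ _, ?_⟩
        exact (ENNReal.ofReal_le_ofReal (min_le_right _ _)).trans (ENNReal.ofReal_toReal ht).le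
    set lg := ENNReal.ofReal (Real.log (1 / M)) with hlg
    have hlgt : lg ≠ ⊤ := ENNReal.ofReal_ne_top
    set n : ℝ≥0∞ := (Fintype.card (Dir d) : ℝ≥0∞) with hn
    have hnt : n ≠ ⊤ := ENNReal.natCast_ne_top _
    have h3 : ε / 3 ≠ 0 := (ENNReal.div_pos hε (by norm_num)).ne'
    obtain ⟨ε', hε'0, hε'⟩ := small_mul (a := 1 + n * lg) (δ := ε / 3)
      (by simp [ENNReal.mul_eq_top, hnt, hlgt]) h3
    obtain ⟨α', hα'0, hα'⟩ := small_mul (a := n * lg) (δ := ε / 3)
      (by simp [ENNReal.mul_eq_top, hnt, hlgt]) h3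
    obtain ⟨α, hα0, hα⟩ := ih ε' hε'0
    refine ⟨min α α', (lt_min (pos_iff_ne_zero.2 hα0) (pos_iff_ne_zero.2 hα'0)).ne',
      fun N hN => ?_⟩
    have h4 := VB_succ μ hstep hM hM1 (fun u hu => (hN u hu).trans (min_le_right _ _))
      (hα N fun u hu => (hN u hu).trans (min_le_left _ _))
    refine VB_mono μ ?_ h4
    calc ε' + ENNReal.ofReal M + n * (α' + ε') * lg
        = ε' * (1 + n * lg) + ENNReal.ofReal M + α' * (n * lg) := by ring
      _ ≤ ε / 3 + ε / 3 + ε / 3 := by gcongr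
      _ = ε := ENNReal.add_thirds ε

/-- Crossing words with at most `K` departures from level zero. -/
def QK (h : Site d →+ ℤ) (N : ℤ) (K : ℕ) : Set (List (Dir d)) :=
  {c | (∀ x ∈ exits 0 c, h x < N) ∧ N ≤ h (dsp c) ∧ nz h 0 c ≤ K}

lemma cross_le {N : ℤ} (hN : 0 < N) (K : ℕ) (ω : Env d) :
    ∑' c : QK h N K, qw ω 0 (c : List (Dir d)) ≤
      ∑ i ∈ Finset.range K, ∑' π : Vis h N i, qw ω 0 (π : List (Dir d)) *
        upE h N ω (dsp (π : List (Dir d))) := by
  classical
  set U := (Finset.univ : Finset (Dir d)).filter (fun u => h (vec u) = 1) with hU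
  have hdec : ∀ c : QK h N K, ∃ p : (Σ i : (Finset.range K), Σ π : Vis h N (i : ℕ), Σ u : U,
      EB (Dh h N) (Bh h N) (dsp (π : List (Dir d)) + vec (u : Dir d))),
      (c : List (Dir d)) = (p.2.1 : List (Dir d)) ++ ((p.2.2.1 : Dir d) ::
        (p.2.2.2 : List (Dir d))) := by
    rintro ⟨c, hc1, hc2, hc3⟩
    have h1 : 1 ≤ nz h 0 c := by
      cases c with
      | nil => rw [dsp_nil, map_zero] at hc2; omega
      | cons u c => rw [nz_cons, if_pos (map_zero h)]; omega
    obtain ⟨a, u, c', h2, h3, h4, h5⟩ := Cross_shape hstep hN hc1 hc2 h1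
    exact ⟨⟨⟨nz h 0 c - 1, by rw [Finset.mem_range]; omega⟩, ⟨a, h4⟩,
      ⟨u, by rw [hU, Finset.mem_filter]; exact ⟨Finset.mem_univ _, h2⟩⟩, ⟨c', h5⟩⟩, h3⟩
  choose f hf using hdec
  have hinj : Function.Injective f := by
    intro c c' hh
    apply Subtype.ext
    rw [hf c, hf c', hh]
  set G : (Σ i : (Finset.range K), Σ π : Vis h N (i : ℕ), Σ u : U,
      EB (Dh h N) (Bh h N) (dsp (π : List (Dir d)) + vec (u : Dir d))) → ℝ≥0∞ :=
    fun p => qw ω 0 ((p.2.1 : List (Dir d)) ++ ((p.2.2.1 : Dir d) ::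
        (p.2.2.2 : List (Dir d)))) with hG
  calc ∑' c : QK h N K, qw ω 0 (c : List (Dir d)) = ∑' c : QK h N K, G (f c) := by
        refine tsum_congr fun c => ?_
        rw [hG]; beta_reduce; rw [← hf c]
    _ ≤ ∑' p, G p := ENNReal.tsum_comp_le_tsum_of_injective hinj _
    _ = ∑' i : (Finset.range K), ∑' π : Vis h N (i : ℕ), ∑' u : U,
          ∑' c : EB (Dh h N) (Bh h N) (dsp (π : List (Dir d)) + vec (u : Dir d)),
            qw ω 0 ((π : List (Dir d)) ++ ((u : Dir d) :: (c : List (Dir d)))) := by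
        rw [ENNReal.tsum_sigma']
        refine tsum_congr fun i => ?_
        rw [ENNReal.tsum_sigma']
        refine tsum_congr fun π => ?_
        rw [ENNReal.tsum_sigma']
    _ ≤ ∑' i : (Finset.range K), ∑' π : Vis h N (i : ℕ), qw ω 0 (π : List (Dir d)) *
        upE h N ω (dsp (π : List (Dir d))) := by
        refine ENNReal.tsum_le_tsum fun i => ENNReal.tsum_le_tsum fun π => ?_
        calc ∑' u : U, ∑' c : EB (Dh h N) (Bh h N) (dsp (π : List (Dir d)) + vec (u : Dir d)),
            qw ω 0 ((π : List (Dir d)) ++ ((u : Dir d) :: (c : List (Dir d))))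
            ≤ ∑' u : U, qw ω 0 (π : List (Dir d)) *
              hB (Dh h N) (Bh h N) ω (dsp (π : List (Dir d)) + vec (u : Dir d)) := by
              refine ENNReal.tsum_le_tsum fun u => ?_
              rw [hB, ← ENNReal.tsum_mul_left]
              refine ENNReal.tsum_le_tsum fun c => ?_
              rw [qw_append, zero_add, qw_cons]
              gcongr
              calc ENNReal.ofReal ((ω (dsp (π : List (Dir d)))).1 (u : Dir d)) *
                    qw ω (dsp (π : List (Dir d)) + vec (u : Dir d)) (c : List (Dir d))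
                  ≤ 1 * qw ω (dsp (π : List (Dir d)) + vec (u : Dir d)) (c : List (Dir d)) := by
                    gcongr
                    rw [← ENNReal.ofReal_one]
                    exact ENNReal.ofReal_le_ofReal (row_le_one _ _)
                _ = _ := one_mul _
          _ = _ := by
              rw [tsum_fintype, upE, Finset.mul_sum,
                Finset.sum_coe_sort U (fun u => qw ω 0 (π : List (Dir d)) *
                  hB (Dh h N) (Bh h N) ω (dsp (π : List (Dir d)) + vec (u : Dir d)))]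
    _ = _ := by
        rw [tsum_fintype, Finset.sum_coe_sort (Finset.range K)
          (fun i => ∑' π : Vis h N i, qw ω 0 (π : List (Dir d)) *
            upE h N ω (dsp (π : List (Dir d))))]

/-- Few visits to level zero before level `N` are unlikely, whatever the environment below. -/
theorem QK_small (K : ℕ) (ε : ℝ≥0∞) (hε : ε ≠ 0) : ∃ α : ℝ≥0∞, α ≠ 0 ∧ ∀ N : ℤ, 0 < N →
    (∀ u : Dir d, h (vec u) = 1 → ∫⁻ ω, hB (Dh h N) (Bh h N) ω (vec u) ∂(envLaw μ) ≤ α) →
      ∀ F : Env d → ℝ≥0∞, Measurable F → LowLoc h F →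
        ∫⁻ ω, F ω * ∑' c : QK h N K, qw ω 0 (c : List (Dir d)) ∂(envLaw μ) ≤
          ε * ∫⁻ ω, F ω ∂(envLaw μ) := by
  classical
  set n : ℝ≥0∞ := (Fintype.card (Dir d) : ℝ≥0∞) with hn
  have hnt : n ≠ ⊤ := ENNReal.natCast_ne_top _
  -- small constant for each term
  obtain ⟨η, hη0, hη⟩ := small_mul (a := (K : ℝ≥0∞) * (n * 2)) (δ := ε)
    (by simp [ENNReal.mul_eq_top, hnt]) hε
  choose α hα0 hα using fun i : ℕ => VB_small μ hstep i η hη0
  refine ⟨min η ((Finset.range K).inf α), ?_, fun N hN hN2 F hF hFl => ?_⟩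
  · refine (lt_min (pos_iff_ne_zero.2 hη0) ?_).ne'
    rw [Finset.lt_inf_iff (by simp)]
    exact fun i _ => pos_iff_ne_zero.2 (hα0 i)
  · calc ∫⁻ ω, F ω * ∑' c : QK h N K, qw ω 0 (c : List (Dir d)) ∂(envLaw μ)
        ≤ ∫⁻ ω, ∑ i ∈ Finset.range K, F ω * ∑' π : Vis h N i, qw ω 0 (π : List (Dir d)) *
            upE h N ω (dsp (π : List (Dir d))) ∂(envLaw μ) := by
          refine lintegral_mono fun ω => ?_
          rw [← Finset.mul_sum]
          gcongr
          exact cross_le hstep hN K ω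
      _ = ∑ i ∈ Finset.range K, ∫⁻ ω, F ω * ∑' π : Vis h N i, qw ω 0 (π : List (Dir d)) *
            upE h N ω (dsp (π : List (Dir d))) ∂(envLaw μ) := by
          refine lintegral_finsetSum _ fun i _ => ?_
          exact hF.mul (Measurable.tsum fun π => (measurable_qw 0 _).mul (measurable_upE N _))
      _ ≤ ∑ i ∈ Finset.range K, n * (η + η) * ∫⁻ ω, F ω ∂(envLaw μ) := by
          refine Finset.sum_le_sum fun i hi => ?_
          refine upE_le μ (fun u hu => (hN2 u hu).trans (min_le_left _ _))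
            (hα i N fun u hu => (hN2 u hu).trans ((min_le_right _ _).trans ?_)) hF hFl
          exact Finset.inf_le hi
      _ = (η * ((K : ℝ≥0∞) * (n * 2))) * ∫⁻ ω, F ω ∂(envLaw μ) := by
          rw [Finset.sum_const, Finset.card_range, nsmul_eq_mul]
          ring
      _ ≤ ε * ∫⁻ ω, F ω ∂(envLaw μ) := by gcongr

end Vale.Agent.P147.Z
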