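import Vale.Agent.P147.H686.Osc5
import Vale.Agent.P147.Bd3.B3

/-! The exit probabilities tend to zero when there is no escape upwards; the key estimate for
words. -/

open MeasureTheory Filter
open scoped ENNReal

namespace Vale.Agent.P147.Z

variable {d : ℕ} {h : Site d →+ ℤ}

/-- The functional with real values. -/
def rl (h : Site d →+ ℤ) : Site d →+ ℝ := (Int.castAddHom ℝ).comp h

@[simp] lemma rl_apply (h : Site d →+ ℤ) (x : Site d) : rl h x = (h x : ℝ) := rfl

variable (μ : Measure (Row d)) [IsProbabilityMeasure μ]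

/-- Reaching level `N` before level zero. -/
def EN (h : Site d →+ ℤ) (N : ℕ) : Set (ℕ → Site d) :=
  {X | ∃ n, (N : ℤ) ≤ h (X n) ∧ ∀ i < n, 0 < h (X i)}

lemma meas_EN (N : ℕ) : MeasurableSet (EN h N) := by
  have : EN h N = ⋃ n : ℕ, {X | (N : ℤ) ≤ h (X n) ∧ ∀ i < n, 0 < h (X i)} := by
    ext X; simp [EN]
  rw [this]
  refine MeasurableSet.iUnion fun n => measurableSet_local n _ fun X Y hXY hX => ?_
  rw [← hXY n le_rfl]
  exact ⟨hX.1, fun i hi => by rw [← hXY i hi.le]; exact hX.2 i hi⟩

lemma hB_le_EN (N : ℕ) (ω : Env d) (v : Site d) :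
    hB (Dh h N) (Bh h N) ω v ≤ quenched ω v (EN h N) := by
  rw [hB]
  simp only [← quenched_cyl]
  rw [← measure_iUnion]
  · refine measure_mono (Set.iUnion_subset fun l => ?_)
    rintro X hX
    refine ⟨(l : List (Dir d)).length, ?_, fun i hi => ?_⟩
    · have h1 := hX _ le_rfl
      rw [h1, List.take_length]
      exact l.2.2
    · have h1 := hX i hi.le
      rw [h1]
      refine (l.2.1 _ (mem_exits.2 ⟨(l : List (Dir d)).take i, (l : List (Dir d)).drop i,
        (List.take_append_drop i _).symm, ?_, rfl⟩)).1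
      intro h2
      have := congrArg List.length h2
      simp at this
      omega
  · intro a b hab
    exact cyl_disjoint (EB_free (disj_DB (h := h) (N : ℤ)) v) a.2 b.2
      (fun h => hab (Subtype.ext h))
  · intro a
    exact measurableSet_cyl _ _

lemma vec_flip (u : Dir d) : vec (u.1, !u.2) = -vec u := by
  obtain ⟨i, b⟩ := u
  cases b <;> simp [vec, ← Pi.single_neg]

lemma stay_zero (hμ : Elliptic μ) (hT : annealed μ 0 (EscR (rl h)) = 0) {u : Dir d}
    (hu : h (vec u) = 1) : annealed μ 0 (StayR (rl h)) = 0 := by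
  have hu' : 0 < (-rl h) (vec (u.1, !u.2)) := by
    rw [vec_flip, map_neg, AddMonoidHom.neg_apply, neg_neg, rl_apply, hu]
    norm_num
  have h1 := esc_of_boundedR μ hμ hu'
  rw [neg_neg] at h1
  have hm := (kal_meas_bddR (-rl h)).diff (measurableSet_escR (rl h))
  have hm2 := measurableSet_escR (rl h)
  rw [← annM_apply μ 0 hm] at h1
  rw [← annM_apply μ 0 hm2] at hT
  refine le_antisymm ?_ zero_le
  calc annealed μ 0 (StayR (rl h)) ≤ annealed μ 0 (StayR (rl h) ∩ Good 0) :=
        annealed_inter_good μ 0 _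
    _ ≤ annealed μ 0 (({X : ℕ → Site d | ∃ k : ℕ, ∀ n, (-rl h) (X n) ≤ k} \ EscR (rl h)) ∪
          EscR (rl h)) := by
        refine annealed_mono μ 0 ?_
        rintro X ⟨hX, hg⟩
        by_cases hX2 : X ∈ EscR (rl h)
        · exact Or.inr hX2
        · refine Or.inl ⟨⟨0, fun n => ?_⟩, hX2⟩
          have h2 := hX n
          have h3 : X 0 = 0 := by
            obtain ⟨l, _, hXl⟩ := hg 0
            have := hXl 0 (Nat.zero_le _)
            simpa using this
          rw [h3, map_zero] at h2
          rw [AddMonoidHom.neg_apply, Nat.cast_zero]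
          linarith
    _ = annM μ 0 _ := (annM_apply μ 0 (hm.union hm2)).symm
    _ = 0 := measure_union_null h1 hT

/-- The exit probabilities tend to zero when there is no escape upwards. -/
theorem alpha_small (hμ : Elliptic μ) (hT : annealed μ 0 (EscR (rl h)) = 0) {ε : ℝ≥0∞}
    (hε : ε ≠ 0) : ∃ N₀ : ℕ, ∀ N : ℕ, N₀ ≤ N → ∀ u : Dir d, h (vec u) = 1 →
      ∫⁻ ω, hB (Dh h N) (Bh h N) ω (vec u) ∂(envLaw μ) ≤ ε := by
  have key : ∀ u : Dir d, ∃ N₀ : ℕ, ∀ N : ℕ, N₀ ≤ N → h (vec u) = 1 →
      ∫⁻ ω, hB (Dh h N) (Bh h N) ω (vec u) ∂(envLaw μ) ≤ ε := by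
    intro u
    by_cases hu : h (vec u) = 1
    · have hanti : Antitone (EN h : ℕ → Set (ℕ → Site d)) := by
        rintro N N' hNN X ⟨n, h1, h2⟩
        exact ⟨n, le_trans (by exact_mod_cast hNN) h1, h2⟩
      have hlim := tendsto_measure_iInter_atTop (μ := annM μ (vec u))
        (fun N => (meas_EN (h := h) N).nullMeasurableSet) hanti ⟨0, measure_ne_top _ _⟩
      have hz : annM μ (vec u) (⋂ N, EN h N) = 0 := by
        have hmI : MeasurableSet (⋂ N, EN h N) := MeasurableSet.iInter fun N => meas_EN N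
        rw [annM_apply μ _ hmI]
        refine le_antisymm ?_ zero_le
        calc annealed μ (vec u) (⋂ N, EN h N)
            ≤ annealed μ (vec u) ((⋂ N, EN h N) ∩ Good (vec u)) :=
              annealed_inter_good μ _ _
          _ ≤ annealed μ (vec u) (StayR (rl h)) := by
              refine annealed_mono μ _ ?_
              rintro X ⟨hX, hg⟩ n
              have h3 : X 0 = vec u := by
                obtain ⟨l, _, hXl⟩ := hg 0
                have := hXl 0 (Nat.zero_le _)
                simpa using this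
              rw [h3, rl_apply, rl_apply, hu]
              obtain ⟨M, hM⟩ := ((Finset.range (n + 1)).image fun i => h (X i)).exists_le
              rw [Set.mem_iInter] at hX
              obtain ⟨m, h4, h5⟩ := hX (M.toNat + 1)
              have h6 : n < m := by
                by_contra hcon
                have h7 := hM (h (X m)) (Finset.mem_image_of_mem _
                  (Finset.mem_range.2 (by omega)))
                push_cast at h4
                have := Int.self_le_toNat M
                omega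
              have h8 := h5 n h6
              exact_mod_cast h8
          _ = 0 := by
              rw [annealed_tinv μ _ (measurableSet_stayR _) (tinv_stayR _)]
              exact stay_zero μ hμ hT hu
      rw [hz] at hlim
      obtain ⟨N₀, hN₀⟩ := eventually_atTop.1 (hlim.eventually_le_const (pos_iff_ne_zero.2 hε))
      refine ⟨N₀, fun N hN _ => ?_⟩
      calc ∫⁻ ω, hB (Dh h N) (Bh h N) ω (vec u) ∂(envLaw μ)
          ≤ ∫⁻ ω, quenched ω (vec u) (EN h N) ∂(envLaw μ) :=
            lintegral_mono fun ω => hB_le_EN N ω _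
        _ = annM μ (vec u) (EN h N) := (annM_apply μ _ (meas_EN N)).symm
        _ ≤ ε := hN₀ N hN
    · exact ⟨0, fun N _ h1 => absurd h1 hu⟩
  choose N₀ hN₀ using key
  refine ⟨Finset.univ.sup N₀, fun N hN u hu => hN₀ u N (le_trans ?_ hN) hu⟩
  exact Finset.le_sup (Finset.mem_univ u)

/-- Weight of the continuations of a word with fresh end point. -/
lemma wt_fresh {π : List (Dir d)} (hπ : ∀ x ∈ exits 0 π, h x < h (dsp π)) :
    ∃ F : Env d → ℝ≥0∞, Measurable F ∧ LowLoc h F ∧ (∫⁻ ω, F ω ∂(envLaw μ) = wt μ π) ∧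
      ∀ c : List (Dir d), wt μ (π ++ c) = ∫⁻ ω, F ω * qw ω 0 c ∂(envLaw μ) := by
  refine ⟨fun ω => qw ω (-dsp π) π, measurable_qw _ _, ?_, lintegral_qw μ _ _, fun c => ?_⟩
  · intro ω ω' hω
    refine qw_congr fun x hx => hω x ?_
    obtain ⟨a, b, hab, hb, rfl⟩ := mem_exits.1 hx
    have h1 := hπ (dsp a) (mem_exits.2 ⟨a, b, hab, hb, by rw [zero_add]⟩)
    rw [map_add, map_neg]
    omega
  · rw [wt, ← (measurePreserving_shift μ (dsp π)).lintegral_comp
      (f := fun ω => qw ω (-dsp π) π * qw ω 0 c)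
      ((measurable_qw _ _).mul (measurable_qw _ _))]
    refine lintegral_congr fun ω => ?_
    rw [qw_shift, qw_shift, neg_add_cancel, zero_add, qw_append, zero_add]

omit [IsProbabilityMeasure μ] in
lemma tsum_wt_append_le {T : Set (List (Dir d))} (hT : Free T) (π : List (Dir d)) :
    ∑' c : T, wt μ (π ++ (c : List (Dir d))) ≤ wt μ π := by
  simp only [wt]
  rw [← lintegral_tsum fun c => (measurable_qw 0 _).aemeasurable]
  refine lintegral_mono fun ω => ?_
  beta_reduce
  calc ∑' c : T, qw ω 0 (π ++ (c : List (Dir d)))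
      = qw ω 0 π * ∑' c : T, qw ω (0 + dsp π) (c : List (Dir d)) := by
        rw [← ENNReal.tsum_mul_left]
        exact tsum_congr fun c => qw_append _ _ _ _
    _ ≤ qw ω 0 π * 1 := by
        gcongr
        exact tsum_qw_le_one hT ω _
    _ = _ := mul_one _

/-- **Key estimate.** Few visits to the current level before the level `N` higher are unlikely,
given any past with fresh end point. -/
theorem key_small (hμ : Elliptic μ) (hT : annealed μ 0 (EscR (rl h)) = 0)
    (hstep : ∀ u : Dir d, |h (vec u)| ≤ 1) (K : ℕ) {ε : ℝ≥0∞} (hε : ε ≠ 0) :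
    ∃ N : ℕ, 0 < N ∧ ∀ π : List (Dir d), (∀ x ∈ exits 0 π, h x < h (dsp π)) →
      ∑' c : QK h N K, wt μ (π ++ (c : List (Dir d))) ≤ ε * wt μ π := by
  obtain ⟨α, hα0, hα⟩ := QK_small μ hstep K ε hε
  obtain ⟨N₀, hN₀⟩ := alpha_small μ hμ hT hα0
  refine ⟨N₀ + 1, by omega, fun π hπ => ?_⟩
  obtain ⟨F, hF, hFl, hFi, hFc⟩ := wt_fresh μ hπ
  have h1 := hα ((N₀ + 1 : ℕ) : ℤ) (by positivity) (fun u hu => hN₀ (N₀ + 1) (by omega) u hu)
    F hF hFl
  rw [← hFi]
  refine le_trans (le_of_eq ?_) h1
  simp_rw [hFc, ← ENNReal.tsum_mul_left]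
  exact (lintegral_tsum (f := fun (c : QK h ((N₀ + 1 : ℕ) : ℤ) K) (ω : Env d) =>
    F ω * qw ω 0 (c : List (Dir d))) fun c => (hF.mul (measurable_qw 0 _)).aemeasurable).symm

end Vale.Agent.P147.Z
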