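import Vale.Agent.P147.H686.Osc6

/-! Iteration over blocks of levels: the first passage times are superlinear. -/

open MeasureTheory Filter
open scoped ENNReal

namespace Vale.Agent.P147.Z

variable {d : ℕ} {h : Site d →+ ℤ}

/-- Number of departures from levels congruent to `a` modulo `N`. -/
def na (h : Site d →+ ℤ) (N a : ℤ) : Site d → List (Dir d) → ℕ
  | _, [] => 0
  | v, u :: l => (if h v % N = a then 1 else 0) + na h N a (v + vec u) l

@[simp] lemma na_nil (N a : ℤ) (v : Site d) : na h N a v [] = 0 := rfl

lemma na_cons (N a : ℤ) (v : Site d) (u : Dir d) (l : List (Dir d)) :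
    na h N a v (u :: l) = (if h v % N = a then 1 else 0) + na h N a (v + vec u) l := rfl

lemma na_append (N a : ℤ) (v : Site d) (l l' : List (Dir d)) :
    na h N a v (l ++ l') = na h N a v l + na h N a (v + dsp l) l' := by
  induction l generalizing v with
  | nil => simp
  | cons u l ih => rw [List.cons_append, na_cons, na_cons, ih, dsp_cons, add_assoc, add_assoc]

/-- Every departure is counted for exactly one residue. -/
lemma sum_na {N : ℕ} (hN : 0 < N) (v : Site d) (l : List (Dir d)) :
    ∑ a ∈ Finset.range N, na h N a v l = l.length := by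
  induction l generalizing v with
  | nil => simp
  | cons u l ih =>
    simp only [na_cons, Finset.sum_add_distrib, ih, List.length_cons]
    have h1 : ∑ a ∈ Finset.range N, (if h v % (N : ℤ) = (a : ℤ) then 1 else 0) = 1 := by
      have hN' : (0 : ℤ) < N := by exact_mod_cast hN
      have h2 := Int.emod_nonneg (h v) hN'.ne'
      have h3 := Int.emod_lt_of_pos (h v) hN'
      rw [Finset.sum_eq_single (h v % (N : ℤ)).toNat]
      · rw [if_pos (by omega)]
      · intro b _ hb
        rw [if_neg]
        intro h4
        apply hb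
        omega
      · intro h4
        exfalso
        apply h4
        rw [Finset.mem_range]
        omega
    rw [h1]
    omega

/-- Departures from level zero after a translation are departures from the residue class. -/
lemma nz_le_na {N a : ℤ} {y : Site d} (hy : h y % N = a) (v : Site d) (l : List (Dir d)) :
    nz h v l ≤ na h N a (y + v) l := by
  induction l generalizing v with
  | nil => simp
  | cons u l ih =>
    rw [nz_cons, na_cons, add_assoc]
    refine add_le_add ?_ (ih _)
    by_cases hv : h v = 0
    · rw [if_pos hv, if_pos (by rw [map_add, hv, add_zero]; exact hy)]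
    · rw [if_neg hv]; exact Nat.zero_le _

/-- First passage words to level `m`. -/
def FPZ (h : Site d →+ ℤ) (m : ℤ) : Set (List (Dir d)) :=
  {l | (∀ x ∈ exits 0 l, h x < m) ∧ m ≤ h (dsp l)}

lemma FPZ_free (m : ℤ) : Free (FPZ h m) := by
  intro a ha b hb
  by_contra hne
  have h1 := hb.1 (dsp a) (mem_exits.2 ⟨a, b, rfl, hne, by rw [zero_add]⟩)
  have h2 := ha.2
  omega

/-- The first passage inside a word. -/
lemma exists_fp {m : ℤ} {v : Site d} {l : List (Dir d)} (hl : m ≤ h (v + dsp l)) :
    ∃ a b, l = a ++ b ∧ (∀ x ∈ exits v a, h x < m) ∧ m ≤ h (v + dsp a) := by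
  induction l generalizing v with
  | nil => exact ⟨[], [], rfl, by simp, hl⟩
  | cons u l ih =>
    by_cases hv : m ≤ h v
    · exact ⟨[], u :: l, rfl, by simp, by simpa using hv⟩
    · rw [dsp_cons, ← add_assoc] at hl
      obtain ⟨a, b, rfl, h1, h2⟩ := ih hl
      refine ⟨u :: a, b, rfl, fun x hx => ?_, by rwa [dsp_cons, ← add_assoc]⟩
      rw [exits_cons, Finset.mem_insert] at hx
      rcases hx with rfl | hx
      · omega
      · exact h1 x hx

variable (hstep : ∀ u : Dir d, |h (vec u)| ≤ 1)
include hstep

/-- The end of a first passage word has exactly the level `m`. -/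
lemma FPZ_end {m : ℤ} (hm : 0 ≤ m) {l : List (Dir d)} (hl : l ∈ FPZ h m) : h (dsp l) = m := by
  rcases List.eq_nil_or_concat' l with rfl | ⟨l', u, rfl⟩
  · have := hl.2
    rw [dsp_nil, map_zero] at this ⊢
    omega
  · have h1 := hl.1 (dsp l') (mem_exits.2 ⟨l', [u], rfl, by simp, by rw [zero_add]⟩)
    have h2 := hl.2
    have h3 := abs_le.1 (hstep u)
    rw [dsp_append, map_add] at h2 ⊢
    simp only [dsp_cons, dsp_nil, add_zero] at h2 ⊢
    omega

/-- Decomposition of a first passage word at a lower level. -/
lemma FPZ_split {m n : ℤ} (hm : 0 ≤ m) (hmn : m ≤ n) {l : List (Dir d)} (hl : l ∈ FPZ h n) :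
    ∃ a ∈ FPZ h m, ∃ b ∈ FPZ h (n - m), l = a ++ b := by
  obtain ⟨a, b, rfl, h1, h2⟩ := exists_fp (h := h) (v := 0) (m := m) (l := l)
    (by rw [zero_add]; exact hmn.trans hl.2)
  rw [zero_add] at h2
  have ha : a ∈ FPZ h m := ⟨h1, h2⟩
  have he := FPZ_end hstep hm ha
  have h3 := hl.1
  rw [exits_append, zero_add] at h3
  refine ⟨a, ha, b, ⟨fun x hx => ?_, ?_⟩, rfl⟩
  · have h5 : x + dsp a ∈ exits (dsp a) b := by
      have h6 := exits_add 0 (dsp a) b
      rw [zero_add] at h6
      rw [h6]
      exact Finset.mem_image_of_mem _ hx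
    have h4 := h3 (x + dsp a) (Finset.mem_union_right _ h5)
    rw [map_add, he] at h4
    omega
  · have h4 := hl.2
    rw [dsp_append, map_add, he] at h4
    omega

variable (μ : Measure (Row d)) [IsProbabilityMeasure μ]

/-- Generating function of the number of departures from the residue class `a`. -/
noncomputable def Gf (h : Site d →+ ℤ) (N a m : ℤ) (s : ℝ≥0∞) : ℝ≥0∞ :=
  ∑' l : FPZ h m, wt μ (l : List (Dir d)) * s ^ na h N a 0 l

omit [IsProbabilityMeasure μ] in
lemma Gf_step {N : ℕ} {K : ℕ} {ε s : ℝ≥0∞} (hs : s ≤ 1)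
    (hkey : ∀ π : List (Dir d), (∀ x ∈ exits 0 π, h x < h (dsp π)) →
      ∑' c : QK h N K, wt μ (π ++ (c : List (Dir d))) ≤ ε * wt μ π)
    {a m : ℤ} (hm : 0 ≤ m) (hma : m % N = a) :
    Gf μ h N a (m + N) s ≤ (ε + s ^ K) * Gf μ h N a m s := by
  classical
  have hdec : ∀ l : FPZ h (m + N), ∃ p : FPZ h m × FPZ h (N : ℤ),
      (l : List (Dir d)) = (p.1 : List (Dir d)) ++ p.2 := by
    rintro ⟨l, hl⟩
    obtain ⟨a, ha, b, hb, rfl⟩ := FPZ_split hstep hm (by omega) hl
    rw [add_sub_cancel_left] at hb
    exact ⟨(⟨a, ha⟩, ⟨b, hb⟩), rfl⟩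
  choose f hf using hdec
  have hinj : Function.Injective f := by
    intro l l' hh
    apply Subtype.ext
    rw [hf l, hf l', hh]
  calc Gf μ h N a (m + N) s
      = ∑' l : FPZ h (m + N), (fun p : FPZ h m × FPZ h (N : ℤ) =>
          wt μ ((p.1 : List (Dir d)) ++ p.2) *
            s ^ na h N a 0 ((p.1 : List (Dir d)) ++ p.2)) (f l) := by
        rw [Gf]
        refine tsum_congr fun l => ?_
        simp only [← hf l]
    _ ≤ ∑' p : FPZ h m × FPZ h (N : ℤ), wt μ ((p.1 : List (Dir d)) ++ p.2) *
            s ^ na h N a 0 ((p.1 : List (Dir d)) ++ p.2) :=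
        ENNReal.tsum_comp_le_tsum_of_injective hinj _
    _ = ∑' π : FPZ h m, ∑' c : FPZ h (N : ℤ), wt μ ((π : List (Dir d)) ++ c) *
            s ^ na h N a 0 ((π : List (Dir d)) ++ c) :=
        ENNReal.tsum_prod (f := fun (π : FPZ h m) (c : FPZ h (N : ℤ)) =>
          wt μ ((π : List (Dir d)) ++ c) * s ^ na h N a 0 ((π : List (Dir d)) ++ c))
    _ ≤ ∑' π : FPZ h m, (ε + s ^ K) * (wt μ π * s ^ na h N a 0 π) := by
        refine ENNReal.tsum_le_tsum fun π => ?_
        have he := FPZ_end hstep hm π.2
        have hfresh : ∀ x ∈ exits 0 (π : List (Dir d)), h x < h (dsp (π : List (Dir d))) := by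
          rw [he]; exact π.2.1
        calc ∑' c : FPZ h (N : ℤ), wt μ ((π : List (Dir d)) ++ c) *
              s ^ na h N a 0 ((π : List (Dir d)) ++ c)
            ≤ ∑' c : FPZ h (N : ℤ), (wt μ ((π : List (Dir d)) ++ c) *
                (if (c : List (Dir d)) ∈ QK h N K then 1 else 0) +
                  wt μ ((π : List (Dir d)) ++ c) * s ^ K) * s ^ na h N a 0 π := by
              refine ENNReal.tsum_le_tsum fun c => ?_
              rw [← mul_add, mul_assoc]
              refine mul_le_mul_right ?_ _
              rw [na_append, pow_add, mul_comm]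
              refine mul_le_mul_left ?_ _
              rw [zero_add]
              have h1 := nz_le_na (h := h) (N := N) (a := a) (y := dsp (π : List (Dir d)))
                (by rw [he]; exact hma) 0 (c : List (Dir d))
              rw [add_zero] at h1
              split_ifs with hc
              · exact (pow_le_one₀ zero_le hs).trans le_self_add
              · refine le_add_left ?_
                have h2 : K < nz h 0 (c : List (Dir d)) := by
                  by_contra hcon
                  exact hc ⟨c.2.1, c.2.2, by omega⟩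
                exact pow_le_pow_of_le_one zero_le hs (by omega)
          _ = ((∑' c : FPZ h (N : ℤ), wt μ ((π : List (Dir d)) ++ c) *
                (if (c : List (Dir d)) ∈ QK h N K then 1 else 0)) +
                  (∑' c : FPZ h (N : ℤ), wt μ ((π : List (Dir d)) ++ c)) * s ^ K) *
                    s ^ na h N a 0 π := by
              rw [ENNReal.tsum_mul_right, ENNReal.tsum_add, ENNReal.tsum_mul_right]
          _ ≤ (ε * wt μ π + wt μ π * s ^ K) * s ^ na h N a 0 π := by
              gcongr
              · refine le_trans ?_ (hkey π hfresh)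
                rw [tsum_subtype (FPZ h (N : ℤ)) (fun c => wt μ ((π : List (Dir d)) ++ c) *
                  (if c ∈ QK h N K then 1 else 0)), tsum_subtype (QK h N K)
                  (fun c => wt μ ((π : List (Dir d)) ++ c))]
                refine ENNReal.tsum_le_tsum fun c => ?_
                simp only [Set.indicator_apply]
                by_cases h1 : c ∈ FPZ h (N : ℤ) <;> by_cases h2 : c ∈ QK h N K <;> simp [h1, h2]
              · exact tsum_wt_append_le μ (FPZ_free _) _
          _ = _ := by ring
    _ = _ := by rw [ENNReal.tsum_mul_left, Gf]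

lemma Gf_iter {N : ℕ} {K : ℕ} {ε s : ℝ≥0∞} (hs : s ≤ 1)
    (hkey : ∀ π : List (Dir d), (∀ x ∈ exits 0 π, h x < h (dsp π)) →
      ∑' c : QK h N K, wt μ (π ++ (c : List (Dir d))) ≤ ε * wt μ π)
    {a : ℕ} (ha : a < N) (J : ℕ) :
    Gf μ h N a (a + J * N) s ≤ (ε + s ^ K) ^ J := by
  induction J with
  | zero =>
    rw [pow_zero]
    calc Gf μ h N a (a + (0 : ℕ) * N) s ≤ ∑' l : FPZ h (a + (0 : ℕ) * N), wt μ (l : List (Dir d)) := by
          refine ENNReal.tsum_le_tsum fun l => ?_
          exact mul_le_of_le_one_right zero_le (pow_le_one₀ zero_le hs)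
      _ ≤ 1 := tsum_wt_le_one μ (FPZ_free _)
  | succ J ih =>
    have hN' : (0 : ℤ) < N := by exact_mod_cast (show 0 < N by omega)
    have e : ((a : ℤ) + ((J + 1 : ℕ) : ℤ) * N) = (a + (J : ℤ) * N) + N := by push_cast; ring
    rw [e, pow_succ']
    refine (Gf_step hstep μ hs hkey (by positivity) ?_).trans (by gcongr)
    rw [Int.add_mul_emod_self_right, Int.emod_eq_of_lt (by positivity) (by exact_mod_cast ha)]

end Vale.Agent.P147.Z
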