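import Vale.Agent.P147.Bd3.B2
import Vale.Agent.P147.Bd3.B3

/-! The renewal structure: the law of the walk, given escape without backtracking, is that of the
concatenation of independent irreducible bridges. -/

open MeasureTheory Filter
open scoped ENNReal

namespace Vale.Agent.P147.Z

namespace Reg

variable {d : ℕ} (L : Site d →+ ℝ)

/-- The paths with first block `a`. -/
def Ab (a : List (Dir d)) : Set (ℕ → Site d) := cyl 0 a ∩ tl a.length ⁻¹' UpR L

lemma meas_Ab (a : List (Dir d)) : MeasurableSet (Ab L a) :=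
  (measurableSet_cyl 0 a).inter (measurable_tl a.length (measurableSet_upR L))

variable {L}

lemma Ab_prefix {a a' : List (Dir d)} (ha : a ∈ Ir L) (ha' : a' ∈ Ir L) {X : ℕ → Site d}
    (h : X ∈ Ab L a) (h' : X ∈ Ab L a') (hlen : a.length ≤ a'.length) : a = a' := by
  obtain ⟨c, rfl⟩ := cyl_inter h.1 h'.1 hlen
  have hc : c ∈ Br L := by
    intro x hx
    obtain ⟨c1, c2, rfl, hc2, rfl⟩ := mem_exits.1 hx
    rw [zero_add] at hx ⊢
    have h1 := (ha'.1 (dsp a + dsp c1) (mem_exits_append.2 (Or.inr ⟨dsp c1, hx, by abel⟩))).2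
    rw [dsp_append a, map_add, map_add] at h1
    refine ⟨?_, by linarith⟩
    have h2 := h.2.1 c1.length
    simp only [tl, zero_add] at h2
    have h3 := cyl_pos h'.1 (a := a) (b := c1 ++ c2) rfl
    have h4 := cyl_pos h'.1 (a := a ++ c1) (b := c2) (by rw [List.append_assoc])
    rw [List.length_append, add_comm] at h4
    rw [h3, h4, zero_add, zero_add, dsp_append, map_add] at h2
    linarith
  rcases ha'.2.2 a c rfl ha.1 hc with h1 | h1
  · exact absurd h1 ha.2.1
  · rw [h1, List.append_nil]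

lemma Ab_unique {a a' : List (Dir d)} (ha : a ∈ Ir L) (ha' : a' ∈ Ir L) {X : ℕ → Site d}
    (h : X ∈ Ab L a) (h' : X ∈ Ab L a') : a = a' := by
  rcases le_total a.length a'.length with hlen | hlen
  · exact Ab_prefix ha ha' h h' hlen
  · exact (Ab_prefix ha' ha h' h hlen).symm

lemma Ab_subset {a : List (Dir d)} (ha : a ∈ Br L) : Ab L a ⊆ UpR L := by
  rintro X ⟨h1, h2, h3⟩
  have h0 : X 0 = 0 := by simpa using h1 0 (Nat.zero_le _)
  refine ⟨fun n => ?_, (sinv_tl (sinv_escR L) _ X).1 h3⟩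
  rw [h0, map_zero]
  rcases lt_or_ge n a.length with hn | hn
  · have h4 := h1 n hn.le
    rw [h4, zero_add]
    refine (ha _ (mem_exits.2 ⟨a.take n, a.drop n, (List.take_append_drop n a).symm, ?_, ?_⟩)).1
    · intro h5
      have := congrArg List.length h5
      simp at this
      omega
    · rw [zero_add]
  · have h4 := h2 (n - a.length)
    simp only [tl, zero_add] at h4
    rw [Nat.sub_add_cancel hn] at h4
    have h5 := cyl_pos h1 (a := a) (b := []) (by simp)
    rw [h5, zero_add] at h4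
    exact (Br_nonneg ha).trans h4

variable (L)

open Classical in
/-- The first block of a path. -/
noncomputable def sg (X : ℕ → Site d) : List (Dir d) :=
  if h : ∃ a, a ∈ Ir L ∧ X ∈ Ab L a then h.choose else []

variable {L}

lemma sg_eq {a : List (Dir d)} (ha : a ∈ Ir L) {X : ℕ → Site d} (h : X ∈ Ab L a) :
    sg L X = a := by
  have hex : ∃ a, a ∈ Ir L ∧ X ∈ Ab L a := ⟨a, ha, h⟩
  rw [sg, dif_pos hex]
  exact Ab_unique hex.choose_spec.1 ha hex.choose_spec.2 h

variable (L)

/-- The paths that have a first block. -/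
def HasB : Set (ℕ → Site d) := ⋃ a : Ir L, Ab L a

lemma meas_HasB : MeasurableSet (HasB L) := MeasurableSet.iUnion fun a => meas_Ab L a

lemma sg_preimage (S : Set (List (Dir d))) : sg L ⁻¹' S =
    (⋃ a : (Ir L ∩ S : Set (List (Dir d))), Ab L a) ∪
      ((HasB L)ᶜ ∩ {_X | ([] : List (Dir d)) ∈ S}) := by
  ext X
  simp only [Set.mem_preimage, Set.mem_union, Set.mem_iUnion, Set.mem_inter_iff, HasB,
    Set.mem_compl_iff, Set.mem_ofPred_eq]
  by_cases hex : ∃ a, a ∈ Ir L ∧ X ∈ Ab L a
  · obtain ⟨a, ha, hX⟩ := hex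
    rw [sg_eq ha hX]
    constructor
    · intro h; exact Or.inl ⟨⟨a, ha, h⟩, hX⟩
    · rintro (⟨⟨b, hb, hbS⟩, hX2⟩ | ⟨h1, _⟩)
      · rw [Ab_unique ha hb hX hX2]; exact hbS
      · exact absurd ⟨⟨a, ha⟩, hX⟩ h1
  · rw [sg, dif_neg hex]
    constructor
    · intro h
      refine Or.inr ⟨?_, h⟩
      rintro ⟨a, ha⟩
      exact hex ⟨a.1, a.2, ha⟩
    · rintro (⟨⟨b, hb, _⟩, hX2⟩ | ⟨_, h2⟩)
      · exact absurd ⟨b, hb, hX2⟩ hex
      · exact h2

lemma meas_sg (S : Set (List (Dir d))) : MeasurableSet (sg L ⁻¹' S) := by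
  rw [sg_preimage]
  refine MeasurableSet.union (MeasurableSet.iUnion fun a => meas_Ab L a) ?_
  refine (meas_HasB L).compl.inter ?_
  exact MeasurableSet.const _

lemma meas_comp_sg {α : Type*} [MeasurableSpace α] (f : List (Dir d) → α) :
    Measurable (fun X => f (sg L X)) := by
  intro S _
  exact meas_sg L (f ⁻¹' S)

/-- The path started at the origin. -/
def nrm (X : ℕ → Site d) : ℕ → Site d := fun n => X n + -(X 0)

lemma meas_nrm : Measurable (nrm : (ℕ → Site d) → (ℕ → Site d)) := by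
  refine measurable_pi_lambda _ fun n => ?_
  have h1 : Measurable (fun X : ℕ → Site d => (X n, X 0)) :=
    (measurable_pi_apply n).prodMk (measurable_pi_apply 0)
  exact (measurable_of_countable (fun p : Site d × Site d => p.1 + -p.2)).comp h1

lemma nrm_tr (z : Site d) (X : ℕ → Site d) : nrm (tr z X) = nrm X := by
  funext n
  simp only [nrm, tr]
  abel

lemma nrm_self {X : ℕ → Site d} (h : X 0 = 0) : nrm X = X := by
  funext n; simp [nrm, h]

/-- The path after its first block. -/
noncomputable def th (X : ℕ → Site d) : ℕ → Site d := nrm (tl (sg L X).length X)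

lemma meas_th : Measurable (th L) := by
  intro S hS
  have e : th L ⁻¹' S = ⋃ a : List (Dir d), (sg L ⁻¹' {a}) ∩ (fun X => nrm (tl a.length X)) ⁻¹' S := by
    ext X
    simp only [Set.mem_preimage, Set.mem_iUnion, Set.mem_inter_iff, Set.mem_singleton_iff, th]
    constructor
    · intro h; exact ⟨sg L X, rfl, h⟩
    · rintro ⟨a, rfl, h⟩; exact h
  rw [e]
  exact MeasurableSet.iUnion fun a => (meas_sg L {a}).inter
    ((meas_nrm.comp (measurable_tl a.length)) hS)

variable (μ : Measure (Row d)) [IsProbabilityMeasure μ]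

lemma start_zero : annM μ 0 {X : ℕ → Site d | X 0 ≠ 0} = 0 := by
  have hm0 : Measurable (fun X : ℕ → Site d => X 0) := measurable_pi_apply 0
  have hm : MeasurableSet {X : ℕ → Site d | X 0 ≠ 0} :=
    hm0 (MeasurableSet.singleton (0 : Site d)).compl
  rw [annM_apply μ 0 hm]
  refine le_antisymm ((annealed_inter_good μ 0 _).trans ?_) zero_le
  have e : {X : ℕ → Site d | X 0 ≠ 0} ∩ Good 0 = ∅ := by
    ext X
    simp only [Set.mem_inter_iff, Set.mem_ofPred_eq, Set.mem_empty_iff_false, iff_false]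
    rintro ⟨h1, hg⟩
    obtain ⟨l, _, hXl⟩ := hg 0
    exact h1 (by simpa using hXl 0 (Nat.zero_le _))
  rw [e]
  simp [annealed]

/-- The weight of the paths with first block `a` and a given continuation. -/
lemma ann_block {a : List (Dir d)} (ha : a ∈ Br L) {B : Set (ℕ → Site d)} (hB : MeasurableSet B) :
    annM μ 0 (Ab L a ∩ (fun X => nrm (tl a.length X)) ⁻¹' B) =
      wt μ a * annM μ 0 (UpR L ∩ B) := by
  have hB' : MeasurableSet (nrm ⁻¹' B : Set (ℕ → Site d)) := meas_nrm hB
  have hm : MeasurableSet (UpR L ∩ nrm ⁻¹' B) := (measurableSet_upR L).inter hB'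
  have hT : TInv (UpR L ∩ nrm ⁻¹' B) := by
    refine tinv_inter (tinv_upR L) fun z X => ?_
    rw [Set.mem_preimage, Set.mem_preimage, nrm_tr]
  have e1 : Ab L a ∩ (fun X => nrm (tl a.length X)) ⁻¹' B =
      cyl 0 a ∩ tl a.length ⁻¹' (UpR L ∩ nrm ⁻¹' B) := by
    rw [Ab, Set.inter_assoc]; rfl
  have e2 := annealed_freshR μ L (l := a) (fun b c hbc hc => by
    refine (ha (dsp b) (mem_exits.2 ⟨b, c, hbc, hc, by rw [zero_add]⟩)).2) hm hT
      (fun X hX => hX.1.1)
  have e3 : annM μ 0 (UpR L ∩ nrm ⁻¹' B) = annM μ 0 (UpR L ∩ B) := by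
    refine measure_congr ?_
    have h0 : ∀ᵐ X ∂(annM μ 0), X 0 = 0 := by
      rw [ae_iff]; exact start_zero μ
    filter_upwards [h0] with X hX
    refine propext ?_
    change (X ∈ UpR L ∧ nrm X ∈ B) ↔ (X ∈ UpR L ∧ X ∈ B)
    rw [nrm_self hX]
  rw [e1, annM_apply μ 0 ((measurableSet_cyl 0 a).inter (measurable_tl _ hm)), e2,
    ← annM_apply μ 0 hm, e3]

variable {L}

/-- Almost every path that escapes without backtracking has a first block. -/
lemma has_block (hL : Lvl L) (hp : annealed μ 0 (UpR L) ≠ 0) :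
    annM μ 0 (UpR L \ HasB L) = 0 := by
  have h1 := tsum_Ir μ hL hp (fun a => upR_le_fu μ L a)
  have h2 : annM μ 0 (HasB L) = annM μ 0 (UpR L) := by
    rw [HasB, measure_iUnion]
    · calc ∑' a : Ir L, annM μ 0 (Ab L a) = ∑' a : Ir L, wt μ a.1 * annM μ 0 (UpR L) := by
            refine tsum_congr fun a => ?_
            have := ann_block L μ a.2.1 MeasurableSet.univ
            simpa using this
        _ = _ := by rw [ENNReal.tsum_mul_right, h1, one_mul]
    · intro a b hab
      rw [Function.onFun, Set.disjoint_left]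
      intro X hX hX2
      exact hab (Subtype.ext (Ab_unique a.2 b.2 hX hX2))
    · exact fun a => meas_Ab L a
  have h3 : HasB L ⊆ UpR L := Set.iUnion_subset fun a => Ab_subset a.2.1
  rw [measure_sdiff h3 (meas_HasB L).nullMeasurableSet (measure_ne_top _ _), h2, tsub_self]

/-- **Renewal.** The first block and the path after it are independent, given escape without
backtracking, and the path after the first block has the original law. -/
theorem renew (hL : Lvl L) (hp : annealed μ 0 (UpR L) ≠ 0) {B : Set (ℕ → Site d)}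
    (hB : MeasurableSet B) (S : Set (List (Dir d))) :
    annM μ 0 (UpR L ∩ (sg L ⁻¹' S ∩ th L ⁻¹' B)) =
      (∑' a : (Ir L ∩ S : Set (List (Dir d))), wt μ a.1) * annM μ 0 (UpR L ∩ B) := by
  have hmS := meas_sg L S
  have hmB := meas_th L hB
  have h1 : annM μ 0 (UpR L ∩ (sg L ⁻¹' S ∩ th L ⁻¹' B)) =
      annM μ 0 (⋃ a : (Ir L ∩ S : Set (List (Dir d))),
        (Ab L a.1 ∩ (fun X => nrm (tl a.1.length X)) ⁻¹' B)) := by
    refine measure_congr ?_
    have h0 : ∀ᵐ X ∂(annM μ 0), X ∉ UpR L \ HasB L :=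
      measure_eq_zero_iff_ae_notMem.1 (has_block μ hL hp)
    filter_upwards [h0] with X hX
    refine propext ?_
    change (X ∈ UpR L ∧ sg L X ∈ S ∧ th L X ∈ B) ↔ X ∈ ⋃ a : (Ir L ∩ S : Set (List (Dir d))),
        (Ab L a.1 ∩ (fun X => nrm (tl a.1.length X)) ⁻¹' B)
    rw [Set.mem_iUnion]
    constructor
    · rintro ⟨hU, h2, h3⟩
      have h4 : X ∈ HasB L := by
        by_contra hcon
        exact hX ⟨hU, hcon⟩
      obtain ⟨a, ha⟩ := Set.mem_iUnion.1 h4
      have h5 := sg_eq a.2 ha
      refine ⟨⟨a.1, a.2, by rw [← h5]; exact h2⟩, ha, ?_⟩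
      rw [th, h5] at h3
      exact h3
    · rintro ⟨⟨a, ha, haS⟩, h2, h3⟩
      have h5 := sg_eq ha h2
      refine ⟨Ab_subset ha.1 h2, by rw [h5]; exact haS, ?_⟩
      rw [th, h5]
      exact h3
  rw [h1, measure_iUnion]
  · rw [← ENNReal.tsum_mul_right]
    exact tsum_congr fun a => ann_block L μ a.2.1.1 hB
  · intro a b hab
    rw [Function.onFun, Set.disjoint_left]
    intro X hX hX2
    exact hab (Subtype.ext (Ab_unique a.2.1 b.2.1 hX.1 hX2.1))
  · exact fun a => (meas_Ab L a.1).inter ((meas_nrm.comp (measurable_tl a.1.length)) hB)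

end Reg

end Vale.Agent.P147.Z
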