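import Mathlib.Probability.StrongLaw
import Mathlib.Probability.ConditionalProbability
import Vale.Agent.P147.H686.Reg1

/-! The strong law of large numbers for functions of the blocks. -/

open MeasureTheory Filter ProbabilityTheory
open scoped ENNReal Topology

namespace Vale.Agent.P147.Z

namespace Reg

variable {d : ℕ} (L : Site d →+ ℝ) (μ : Measure (Row d)) [IsProbabilityMeasure μ]

/-- The law of the walk given escape without backtracking. -/
noncomputable def nu : Measure (ℕ → Site d) := ProbabilityTheory.cond (annM μ 0) (UpR L)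

variable {L}

omit [IsProbabilityMeasure μ] in
lemma nu_apply (E : Set (ℕ → Site d)) :
    nu L μ E = (annM μ 0 (UpR L))⁻¹ * annM μ 0 (UpR L ∩ E) :=
  ProbabilityTheory.cond_apply (measurableSet_upR L) _ _

omit [IsProbabilityMeasure μ] in
lemma annM_upR_ne_zero (hp : annealed μ 0 (UpR L) ≠ 0) : annM μ 0 (UpR L) ≠ 0 := by
  rwa [annM_apply μ 0 (measurableSet_upR L)]

lemma nu_prob (hp : annealed μ 0 (UpR L) ≠ 0) : IsProbabilityMeasure (nu L μ) :=
  ProbabilityTheory.cond_isProbabilityMeasure (annM_upR_ne_zero μ hp)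

/-- Weight of a set of first blocks. -/
lemma nu_sg (hL : Lvl L) (hp : annealed μ 0 (UpR L) ≠ 0) (S : Set (List (Dir d))) :
    nu L μ (sg L ⁻¹' S) = ∑' a : (Ir L ∩ S : Set (List (Dir d))), wt μ a.1 := by
  have h1 := renew μ hL hp MeasurableSet.univ S
  rw [Set.preimage_univ, Set.inter_univ, Set.inter_univ] at h1
  rw [nu_apply, h1, mul_comm, mul_assoc, ENNReal.mul_inv_cancel (annM_upR_ne_zero μ hp)
    (measure_ne_top _ _), mul_one]

lemma nu_inter (hL : Lvl L) (hp : annealed μ 0 (UpR L) ≠ 0) (S : Set (List (Dir d)))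
    {B : Set (ℕ → Site d)} (hB : MeasurableSet B) :
    nu L μ (sg L ⁻¹' S ∩ th L ⁻¹' B) = nu L μ (sg L ⁻¹' S) * nu L μ B := by
  rw [nu_sg μ hL hp, nu_apply, nu_apply, renew μ hL hp hB S]
  ring

lemma nu_th (hL : Lvl L) (hp : annealed μ 0 (UpR L) ≠ 0)
    {B : Set (ℕ → Site d)} (hB : MeasurableSet B) :
    nu L μ (th L ⁻¹' B) = nu L μ B := by
  have := nu_prob μ hp
  have h1 := nu_inter μ hL hp Set.univ hB
  rwa [Set.preimage_univ, Set.univ_inter, measure_univ, one_mul] at h1

lemma mp_th (hL : Lvl L) (hp : annealed μ 0 (UpR L) ≠ 0) :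
    MeasurePreserving (th L) (nu L μ) (nu L μ) := by
  refine ⟨meas_th L, Measure.ext fun B hB => ?_⟩
  rw [Measure.map_apply (meas_th L) hB, nu_th μ hL hp hB]

lemma mp_iter (hL : Lvl L) (hp : annealed μ 0 (UpR L) ≠ 0) (k : ℕ) :
    MeasurePreserving ((th L)^[k]) (nu L μ) (nu L μ) := (mp_th μ hL hp).iterate k

/-- The function `f` of the `k`-th block. -/
noncomputable def fb (L : Site d →+ ℝ) (f : List (Dir d) → ℝ) (k : ℕ) (X : ℕ → Site d) : ℝ :=
  f (sg L ((th L)^[k] X))

lemma indep_blocks (hL : Lvl L) (hp : annealed μ 0 (UpR L) ≠ 0) (f : List (Dir d) → ℝ) :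
    Pairwise fun i j => IndepFun (fb L f i) (fb L f j) (nu L μ) := by
  have key : ∀ i r : ℕ, IndepFun (fb L f i) (fb L f (i + 1 + r)) (nu L μ) := by
    intro i r
    rw [indepFun_iff_measure_inter_preimage_eq_mul]
    intro s t _ _
    set B : Set (ℕ → Site d) := (th L)^[r] ⁻¹' (sg L ⁻¹' (f ⁻¹' t)) with hB
    have hBm : MeasurableSet B := ((mp_iter μ hL hp r).measurable) (meas_sg L _)
    have hAm : MeasurableSet (sg L ⁻¹' (f ⁻¹' s)) := meas_sg L _
    have e1 : fb L f i ⁻¹' s = (th L)^[i] ⁻¹' (sg L ⁻¹' (f ⁻¹' s)) := rfl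
    have e2 : fb L f (i + 1 + r) ⁻¹' t = (th L)^[i] ⁻¹' (th L ⁻¹' B) := by
      ext X
      simp only [hB, Set.mem_preimage, fb]
      have : (th L)^[i + 1 + r] X = (th L)^[r] (th L ((th L)^[i] X)) := by
        rw [add_comm (i + 1) r, Function.iterate_add_apply, Function.iterate_succ_apply']
      rw [this]
    rw [e1, e2, ← Set.preimage_inter, (mp_iter μ hL hp i).measure_preimage
      (hAm.inter (meas_th L hBm)).nullMeasurableSet, (mp_iter μ hL hp i).measure_preimage
      hAm.nullMeasurableSet, (mp_iter μ hL hp i).measure_preimage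
      (meas_th L hBm).nullMeasurableSet, nu_inter μ hL hp _ hBm, nu_th μ hL hp hBm]
  intro i j hij
  rcases lt_or_gt_of_ne hij with h | h
  · obtain ⟨r, rfl⟩ := Nat.exists_eq_add_of_lt h
    have := key i r
    rwa [show i + 1 + r = i + r + 1 by omega] at this
  · obtain ⟨r, rfl⟩ := Nat.exists_eq_add_of_lt h
    have := (key j r).symm
    rwa [show j + 1 + r = j + r + 1 by omega] at this

lemma ident_blocks (hL : Lvl L) (hp : annealed μ 0 (UpR L) ≠ 0) (f : List (Dir d) → ℝ) (i : ℕ) :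
    IdentDistrib (fb L f i) (fb L f 0) (nu L μ) (nu L μ) := by
  have h0 : Measurable (fb L f 0) := meas_comp_sg L f
  have hi : Measurable (fb L f i) := h0.comp (mp_iter μ hL hp i).measurable
  refine ⟨hi.aemeasurable, h0.aemeasurable, ?_⟩
  have e : fb L f i = fb L f 0 ∘ (th L)^[i] := rfl
  rw [e, ← Measure.map_map h0 (mp_iter μ hL hp i).measurable, (mp_iter μ hL hp i).map_eq]

/-- The strong law for functions of the blocks. -/
theorem slln (hL : Lvl L) (hp : annealed μ 0 (UpR L) ≠ 0) (f : List (Dir d) → ℝ)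
    (hint : Integrable (fun X => f (sg L X)) (nu L μ)) :
    ∀ᵐ X ∂(nu L μ), Tendsto (fun n : ℕ => (∑ i ∈ Finset.range n, fb L f i X) / n) atTop
      (𝓝 (∫ X, f (sg L X) ∂(nu L μ))) :=
  strong_law_ae_real (fb L f) hint (indep_blocks μ hL hp f) (ident_blocks μ hL hp f)

/-- Almost surely there are all blocks. -/
theorem all_blocks (hL : Lvl L) (hp : annealed μ 0 (UpR L) ≠ 0) :
    ∀ᵐ X ∂(nu L μ), X 0 = 0 ∧ ∀ k, (th L)^[k] X ∈ HasB L := by
  have h1 : ∀ᵐ X ∂(nu L μ), X ∈ HasB L := by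
    have h2 : nu L μ (HasB L)ᶜ = 0 := by
      rw [nu_apply, ← Set.sdiff_eq, has_block μ hL hp, mul_zero]
    filter_upwards [measure_eq_zero_iff_ae_notMem.1 h2] with X hX
    by_contra hcon
    exact hX hcon
  have h0 : ∀ᵐ X ∂(nu L μ), X 0 = 0 := by
    rw [ae_iff, nu_apply, measure_mono_null Set.inter_subset_right (start_zero μ), mul_zero]
  have h3 : ∀ᵐ X ∂(nu L μ), ∀ k, (th L)^[k] X ∈ HasB L := by
    rw [ae_all_iff]
    intro k
    exact (mp_iter μ hL hp k).quasiMeasurePreserving.ae h1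
  filter_upwards [h0, h3] with X h4 h5 using ⟨h4, h5⟩

/-- Expectation of a function of the first block. -/
lemma lint_sg (hL : Lvl L) (hp : annealed μ 0 (UpR L) ≠ 0) (F : List (Dir d) → ℝ≥0∞) :
    ∫⁻ X, F (sg L X) ∂(nu L μ) = ∑' a : Ir L, wt μ a.1 * F a.1 := by
  classical
  let _ : MeasurableSpace (List (Dir d)) := ⊤
  have : MeasurableSingletonClass (List (Dir d)) := ⟨fun _ => trivial⟩
  have hm : Measurable (sg L) := fun S _ => meas_sg L S
  have hF : Measurable F := fun S _ => trivial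
  rw [← lintegral_map hF hm, lintegral_countable']
  rw [tsum_subtype (Ir L) (fun a => wt μ a * F a)]
  refine tsum_congr fun a => ?_
  rw [Measure.map_apply hm (MeasurableSet.singleton a), nu_sg μ hL hp,
    tsum_subtype (Ir L ∩ {a}) (fun a => wt μ a)]
  rw [tsum_eq_single a]
  · by_cases ha : a ∈ Ir L
    · rw [Set.indicator_of_mem ha, Set.indicator_of_mem
        (show a ∈ Ir L ∩ {a} from ⟨ha, rfl⟩), mul_comm]
    · rw [Set.indicator_of_notMem ha, Set.indicator_of_notMem fun h => ha h.1, mul_zero]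
  · intro b hb
    exact Set.indicator_of_notMem (fun h => hb h.2) _

/-- The mean height of a block is finite. -/
lemma int_height (hL : Lvl L) (hp : annealed μ 0 (UpR L) ≠ 0) :
    Integrable (fun X => L (dsp (sg L X))) (nu L μ) := by
  refine ⟨(meas_comp_sg L fun a => L (dsp a)).aestronglyMeasurable, ?_⟩
  rw [HasFiniteIntegral, lint_sg μ hL hp (fun a => ‖L (dsp a)‖ₑ)]
  refine lt_top_iff_ne_top.2 ?_
  have h1 := mean_height μ hL hp (fun a => upR_le_fu μ L a)
  refine ne_of_eq_of_ne (tsum_congr fun a => ?_) h1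
  rw [Real.enorm_of_nonneg (Br_nonneg a.2.1)]

end Reg

end Vale.Agent.P147.Z
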