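import Vale.Agent.P147.H686.Reg2

/-! Sandwich between block ends, and the passage to the limit. -/

open MeasureTheory Filter ProbabilityTheory
open scoped ENNReal Topology

namespace Vale.Agent.P147.Z

namespace Reg

variable {d : ℕ} (L : Site d →+ ℝ)

/-- Time of the end of the first `m` blocks. -/
noncomputable def St (X : ℕ → Site d) (m : ℕ) : ℕ :=
  ∑ k ∈ Finset.range m, (sg L ((th L)^[k] X)).length

/-- Height of the end of the first `m` blocks. -/
noncomputable def Ht (X : ℕ → Site d) (m : ℕ) : ℝ :=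
  ∑ k ∈ Finset.range m, L (dsp (sg L ((th L)^[k] X)))

lemma nrm_tl (a b : ℕ) (X : ℕ → Site d) : nrm (tl a (nrm (tl b X))) = nrm (tl (b + a) X) := by
  funext n
  simp only [nrm, tl, zero_add]
  rw [show n + a + b = n + (b + a) by omega, show a + b = b + a by omega]
  abel

lemma th_iter {X : ℕ → Site d} (h0 : X 0 = 0) (m : ℕ) :
    (th L)^[m] X = nrm (tl (St L X m) X) := by
  induction m with
  | zero =>
    simp only [Function.iterate_zero, id_eq, St, Finset.range_zero, Finset.sum_empty]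
    have : tl 0 X = X := by funext n; simp [tl]
    rw [this, nrm_self h0]
  | succ m ih =>
    rw [Function.iterate_succ_apply', th]
    have e : St L X (m + 1) = St L X m + (sg L ((th L)^[m] X)).length := by
      rw [St, Finset.sum_range_succ]; rfl
    rw [e]
    conv_lhs => rw [ih]
    rw [nrm_tl, ← ih]

variable {L}

/-- A path with a first block: the block is an irreducible bridge and the path follows it. -/
lemma sg_spec {X : ℕ → Site d} (hX : X ∈ HasB L) : sg L X ∈ Ir L ∧ X ∈ Ab L (sg L X) := by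
  obtain ⟨a, ha⟩ := Set.mem_iUnion.1 hX
  rw [sg_eq a.2 ha]
  exact ⟨a.2, ha⟩

lemma at_end {X : ℕ → Site d} (h0 : X 0 = 0) (hb : ∀ k, (th L)^[k] X ∈ HasB L) (m : ℕ) :
    L (X (St L X m)) = Ht L X m := by
  induction m with
  | zero => simp [St, Ht, h0]
  | succ m ih =>
    obtain ⟨_, h2⟩ := sg_spec (hb m)
    have h3 := cyl_pos h2.1 (a := sg L ((th L)^[m] X)) (b := []) (by simp)
    rw [zero_add] at h3
    have h4 := congrFun (th_iter L h0 m) (sg L ((th L)^[m] X)).length
    simp only [nrm, tl, zero_add] at h4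
    rw [h3] at h4
    have e : St L X (m + 1) = (sg L ((th L)^[m] X)).length + St L X m := by
      rw [St, Finset.sum_range_succ, add_comm]; rfl
    rw [e, Ht, Finset.sum_range_succ, h4]
    change _ = Ht L X m + _
    rw [← ih, map_add, map_neg]
    ring

/-- The heights between two block ends. -/
lemma sandwich {X : ℕ → Site d} (h0 : X 0 = 0) (hb : ∀ k, (th L)^[k] X ∈ HasB L) (m n : ℕ)
    (h1 : St L X m ≤ n) (h2 : n < St L X (m + 1)) :
    Ht L X m ≤ L (X n) ∧ L (X n) ≤ Ht L X (m + 1) := by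
  obtain ⟨h3, h4⟩ := sg_spec (hb m)
  set a := sg L ((th L)^[m] X) with ha
  have e : St L X (m + 1) = St L X m + a.length := by
    rw [St, Finset.sum_range_succ]; rfl
  rw [e] at h2
  obtain ⟨j, rfl⟩ := Nat.exists_eq_add_of_le h1
  have hj : j < a.length := by omega
  have h5 := h4.1 j hj.le
  have h6 := congrFun (th_iter L h0 m) j
  simp only [nrm, tl, zero_add] at h6
  rw [h5, zero_add] at h6
  have h7 := h3.1 (dsp (a.take j)) (mem_exits.2 ⟨a.take j, a.drop j,
    (List.take_append_drop j a).symm, (by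
      intro h8
      have := congrArg List.length h8
      simp at this
      omega), by rw [zero_add]⟩)
  rw [h6, map_add, map_neg, at_end h0 hb, add_comm j] at h7
  have e2 : Ht L X (m + 1) = Ht L X m + L (dsp a) := by
    rw [Ht, Finset.sum_range_succ]; rfl
  rw [e2]
  constructor <;> linarith [h7.1, h7.2]

lemma St_strict {X : ℕ → Site d} (hb : ∀ k, (th L)^[k] X ∈ HasB L) : StrictMono (St L X) := by
  refine strictMono_nat_of_lt_succ fun m => ?_
  have e : St L X (m + 1) = St L X m + (sg L ((th L)^[m] X)).length := by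
    rw [St, Finset.sum_range_succ]; rfl
  rw [e]
  have h1 := (sg_spec (hb m)).1.2.1
  have := List.length_pos_iff.2 h1
  omega

lemma Ht_nonneg {X : ℕ → Site d} (hb : ∀ k, (th L)^[k] X ∈ HasB L) (m : ℕ) : 0 ≤ Ht L X m :=
  Finset.sum_nonneg fun k _ => Br_nonneg (sg_spec (hb k)).1.1

/-- Passage to the limit. -/
lemma limit_aux {S : ℕ → ℕ} {H x : ℕ → ℝ} (hS0 : S 0 = 0) (hS : StrictMono S)
    (hx : ∀ m n, S m ≤ n → n < S (m + 1) → H m ≤ x n ∧ x n ≤ H (m + 1))
    (hH0 : ∀ m, 0 ≤ H m) {g r : ℝ} (hH : Tendsto (fun m : ℕ => H m / m) atTop (𝓝 g))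
    (hr : Tendsto (fun m : ℕ => (m : ℝ) / S m) atTop (𝓝 r)) :
    Tendsto (fun n : ℕ => x n / n) atTop (𝓝 (g * r)) := by
  -- the block of the time `n`
  have hex : ∀ n : ℕ, ∃ m, S m ≤ n ∧ n < S (m + 1) := by
    intro n
    have h1 : ∃ m, n < S (m + 1) := ⟨n, lt_of_lt_of_le (Nat.lt_succ_self n) (hS.id_le (n + 1))⟩
    classical
    refine ⟨Nat.find h1, ?_, Nat.find_spec h1⟩
    rcases Nat.eq_zero_or_pos (Nat.find h1) with h2 | h2
    · rw [h2, hS0]; exact Nat.zero_le _
    · have h3 := Nat.find_min h1 (Nat.sub_lt h2 one_pos)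
      rw [show Nat.find h1 - 1 + 1 = Nat.find h1 by omega] at h3
      exact not_lt.1 h3
  choose M hM1 hM2 using hex
  have hMt : Tendsto M atTop atTop := by
    rw [tendsto_atTop]
    intro b
    filter_upwards [eventually_ge_atTop (S b)] with n hn
    by_contra hcon
    push Not at hcon
    have h1 : S (M n + 1) ≤ S b := hS.monotone (by omega)
    have h2 := hM2 n
    omega
  have hSpos : ∀ m, 1 ≤ m → 0 < S m := fun m hm =>
    lt_of_lt_of_le (show 0 < m by omega) (hS.id_le m)
  have hr1 : Tendsto (fun m : ℕ => ((m + 1 : ℕ) : ℝ) / S (m + 1)) atTop (𝓝 r) :=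
    hr.comp (tendsto_add_atTop_nat 1)
  have hH1 : Tendsto (fun m : ℕ => H (m + 1) / ((m + 1 : ℕ) : ℝ)) atTop (𝓝 g) :=
    hH.comp (tendsto_add_atTop_nat 1)
  have hq1 : Tendsto (fun m : ℕ => (m : ℝ) / ((m + 1 : ℕ) : ℝ)) atTop (𝓝 1) := by
    have := tendsto_natCast_div_add_atTop (1 : ℝ)
    refine this.congr fun m => ?_
    push_cast; rfl
  have hq2 : Tendsto (fun m : ℕ => ((m + 1 : ℕ) : ℝ) / (m : ℝ)) atTop (𝓝 1) := by
    have := hq1.inv₀ one_ne_zero
    rw [inv_one] at this
    exact this.congr fun m => inv_div _ _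
  have hlow : Tendsto (fun m : ℕ => H m / S (m + 1)) atTop (𝓝 (g * r)) := by
    have h1 := (hH.mul hq1).mul hr1
    rw [mul_one] at h1
    refine h1.congr' ?_
    filter_upwards [eventually_ge_atTop 1] with m hm
    have h2 : (m : ℝ) ≠ 0 := by
      have : (0 : ℝ) < m := by exact_mod_cast hm
      exact this.ne'
    have h3 : ((m + 1 : ℕ) : ℝ) ≠ 0 := by positivity
    field_simp
  have hup : Tendsto (fun m : ℕ => H (m + 1) / S m) atTop (𝓝 (g * r)) := by
    have h1 := (hH1.mul hq2).mul hr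
    rw [mul_one] at h1
    refine h1.congr' ?_
    filter_upwards [eventually_ge_atTop 1] with m hm
    have h2 : (m : ℝ) ≠ 0 := by
      have : (0 : ℝ) < m := by exact_mod_cast hm
      exact this.ne'
    have h3 : ((m + 1 : ℕ) : ℝ) ≠ 0 := by positivity
    field_simp
  refine tendsto_of_tendsto_of_tendsto_of_le_of_le' (hlow.comp hMt) (hup.comp hMt) ?_ ?_
  · filter_upwards [eventually_ge_atTop 1] with n hn
    have hn0 : (0 : ℝ) < n := by exact_mod_cast hn
    have h1 := (hx (M n) n (hM1 n) (hM2 n)).1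
    have h2 : (n : ℝ) ≤ S (M n + 1) := by exact_mod_cast (hM2 n).le
    simp only [Function.comp]
    calc H (M n) / S (M n + 1) ≤ H (M n) / n := by
          exact div_le_div_of_nonneg_left (hH0 _) hn0 h2
      _ ≤ x n / n := by gcongr
  · filter_upwards [eventually_ge_atTop 1, hMt.eventually_ge_atTop 1] with n hn hMn
    have hn0 : (0 : ℝ) < n := by exact_mod_cast hn
    have h1 := (hx (M n) n (hM1 n) (hM2 n)).2
    have h2 : (S (M n) : ℝ) ≤ n := by exact_mod_cast hM1 n
    have h3 : (0 : ℝ) < S (M n) := by exact_mod_cast hSpos _ hMn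
    simp only [Function.comp]
    calc x n / n ≤ H (M n + 1) / n := by gcongr
      _ ≤ H (M n + 1) / S (M n) := by
          exact div_le_div_of_nonneg_left (hH0 _) h3 h2

end Reg

end Vale.Agent.P147.Z
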