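import Vale.Agent.P147.H686.Reg3

/-! The law of large numbers in a direction of escape. -/

open MeasureTheory Filter ProbabilityTheory
open scoped ENNReal Topology

namespace Vale.Agent.P147.Z

namespace Reg

variable {d : ℕ} {L : Site d →+ ℝ} (μ : Measure (Row d)) [IsProbabilityMeasure μ]

/-- The truncated length of a block. -/
noncomputable def tf (M : ℕ) (a : List (Dir d)) : ℝ := min (a.length : ℝ) M

lemma tf_nonneg (M : ℕ) (a : List (Dir d)) : 0 ≤ tf M a := le_min (Nat.cast_nonneg _)
  (Nat.cast_nonneg _)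

lemma int_tf (hp : annealed μ 0 (UpR L) ≠ 0) (M : ℕ) :
    Integrable (fun X => tf M (sg L X)) (nu L μ) := by
  have := nu_prob μ hp
  refine Integrable.of_bound (C := M) (meas_comp_sg L (tf M)).aestronglyMeasurable ?_
  refine Eventually.of_forall fun X => ?_
  rw [Real.norm_of_nonneg (tf_nonneg M _)]
  exact min_le_right _ _

/-- The number of blocks per unit of time converges. -/
theorem rate (hL : Lvl L) (hp : annealed μ 0 (UpR L) ≠ 0) :
    ∃ r : ℝ, ∀ᵐ X ∂(nu L μ), Tendsto (fun m : ℕ => (m : ℝ) / St L X m) atTop (𝓝 r) := by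
  have hprob := nu_prob μ hp
  by_cases hint : Integrable (fun X => ((sg L X).length : ℝ)) (nu L μ)
  · -- finite mean
    set δ : ℝ := ∫ X, ((sg L X).length : ℝ) ∂(nu L μ) with hδ
    have hall := all_blocks μ hL hp
    have hδ1 : 1 ≤ δ := by
      have h1 : ∫ _, (1 : ℝ) ∂(nu L μ) ≤ δ := by
        refine integral_mono_ae (integrable_const _) hint ?_
        filter_upwards [hall] with X hX
        have h2 := (sg_spec (hX.2 0)).1.2.1
        rw [Function.iterate_zero, id_eq] at h2
        have h3 : 1 ≤ (sg L X).length := List.length_pos_iff.2 h2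
        exact_mod_cast h3
      simpa using h1
    refine ⟨δ⁻¹, ?_⟩
    filter_upwards [slln μ hL hp (fun a => (a.length : ℝ)) hint] with X hX
    have h1 := hX.inv₀ (by positivity)
    refine h1.congr fun m => ?_
    rw [inv_div]
    congr 1
    rw [St]
    push_cast
    rfl
  · -- infinite mean
    refine ⟨0, ?_⟩
    have hsup : ⨆ M : ℕ, ∫⁻ X, ENNReal.ofReal (tf M (sg L X)) ∂(nu L μ) = ⊤ := by
      rw [← lintegral_iSup]
      · have e : ∀ X : ℕ → Site d, ⨆ M : ℕ, ENNReal.ofReal (tf M (sg L X)) =
            ENNReal.ofReal ((sg L X).length : ℝ) := by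
          intro X
          refine le_antisymm (iSup_le fun M => ENNReal.ofReal_le_ofReal (min_le_left _ _)) ?_
          refine le_iSup_of_le (sg L X).length ?_
          rw [tf, min_self]
        simp only [e]
        by_contra hcon
        apply hint
        refine ⟨(meas_comp_sg L fun a => (a.length : ℝ)).aestronglyMeasurable, ?_⟩
        rw [HasFiniteIntegral]
        refine lt_of_le_of_ne le_top ?_
        intro h1
        apply hcon
        rw [← h1]
        refine lintegral_congr fun X => ?_
        rw [Real.enorm_of_nonneg (Nat.cast_nonneg _)]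
      · intro M
        exact (ENNReal.measurable_ofReal.comp (meas_comp_sg L (tf M)))
      · intro M M' hMM X
        exact ENNReal.ofReal_le_ofReal (min_le_min le_rfl (by exact_mod_cast hMM))
    have hlarge : ∀ K : ℕ, ∃ M : ℕ, (K : ℝ) < ∫ X, tf M (sg L X) ∂(nu L μ) := by
      intro K
      have h1 : (K : ℝ≥0∞) < ⨆ M : ℕ, ∫⁻ X, ENNReal.ofReal (tf M (sg L X)) ∂(nu L μ) := by
        rw [hsup]; exact ENNReal.natCast_lt_top K
      obtain ⟨M, hM⟩ := lt_iSup_iff.1 h1
      refine ⟨M, ?_⟩
      rw [integral_eq_lintegral_of_nonneg_ae (Eventually.of_forall fun X => tf_nonneg M _)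
        (meas_comp_sg L (tf M)).aestronglyMeasurable]
      have hfin : ∫⁻ X, ENNReal.ofReal (tf M (sg L X)) ∂(nu L μ) ≠ ⊤ := by
        have h2 := (int_tf μ hp M).2
        rw [HasFiniteIntegral] at h2
        refine ne_of_eq_of_ne (lintegral_congr fun X => ?_) h2.ne
        rw [Real.enorm_of_nonneg (tf_nonneg M _)]
      have h3 := (ENNReal.toReal_lt_toReal (ENNReal.natCast_ne_top K) hfin).2 hM
      rwa [ENNReal.toReal_natCast] at h3
    choose M hM using hlarge
    have h2 : ∀ᵐ X ∂(nu L μ), ∀ K : ℕ, Tendsto (fun n : ℕ =>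
        (∑ i ∈ Finset.range n, fb L (tf (M K)) i X) / n) atTop
          (𝓝 (∫ X, tf (M K) (sg L X) ∂(nu L μ))) := by
      rw [ae_all_iff]
      intro K
      exact slln μ hL hp (tf (M K)) (int_tf μ hp (M K))
    filter_upwards [h2, all_blocks μ hL hp] with X hX hXb
    -- the ratio tends to infinity
    have h3 : Tendsto (fun m : ℕ => (St L X m : ℝ) / m) atTop atTop := by
      rw [tendsto_atTop]
      intro b
      obtain ⟨K, hK⟩ := exists_nat_ge b
      have h4 := (hX K).eventually_const_lt (hM K)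
      filter_upwards [h4] with m hm
      refine hK.trans (hm.le.trans ?_)
      refine div_le_div_of_nonneg_right ?_ (Nat.cast_nonneg m)
      rw [St]
      push_cast
      exact Finset.sum_le_sum fun i _ => min_le_left _ _
    have h5 := tendsto_inv_atTop_zero.comp h3
    refine h5.congr fun m => ?_
    simp only [Function.comp, inv_div]

/-- The event that the height divided by time converges to `c`. -/
def LC (L : Site d →+ ℝ) (c : ℝ) : Set (ℕ → Site d) :=
  {X | Tendsto (fun n : ℕ => L (X n) / n) atTop (𝓝 c)}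

lemma meas_LC (L : Site d →+ ℝ) (c : ℝ) : MeasurableSet (LC L c) := by
  refine measurableSet_tendsto (𝓝 c) fun n => ?_
  exact ((measurable_of_countable (fun x : Site d => L x)).comp
    (measurable_pi_apply n)).div_const _

lemma tinv_LC (L : Site d →+ ℝ) (c : ℝ) : TInv (LC L c) := by
  have key : ∀ (z : Site d) (X : ℕ → Site d), X ∈ LC L c → tr z X ∈ LC L c := by
    intro z X hX
    have h1 : Tendsto (fun n : ℕ => L z / n) atTop (𝓝 0) :=
      tendsto_const_div_atTop_nhds_zero_nat _
    have h2 := hX.add h1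
    rw [add_zero] at h2
    refine h2.congr fun n => ?_
    simp only [tr, map_add]
    ring
  intro z X
  refine ⟨fun hX => ?_, key z X⟩
  have := key (-z) _ hX
  have e : tr (-z) (tr z X) = X := by
    funext n; simp [tr]
  rwa [e] at this

lemma sinv_LC (L : Site d →+ ℝ) (c : ℝ) : SInv (LC L c) := by
  intro X
  have h1' : Tendsto (fun n : ℕ => (n : ℝ) / ((n + 1 : ℕ) : ℝ)) atTop (𝓝 1) := by
    have := tendsto_natCast_div_add_atTop (1 : ℝ)
    refine this.congr fun m => ?_
    push_cast; rfl
  have h1 : Tendsto (fun n : ℕ => ((n + 1 : ℕ) : ℝ) / (n : ℝ)) atTop (𝓝 1) := by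
    have := h1'.inv₀ one_ne_zero
    rw [inv_one] at this
    exact this.congr fun m => inv_div _ _
  have key : Tendsto (fun n : ℕ => L (X (n + 1)) / ((n + 1 : ℕ) : ℝ)) atTop (𝓝 c) ↔
      Tendsto (fun n : ℕ => L (X n) / (n : ℝ)) atTop (𝓝 c) :=
    tendsto_add_atTop_iff_nat (f := fun n : ℕ => L (X n) / (n : ℝ)) 1
  change Tendsto (fun n : ℕ => L (X (n + 1)) / (n : ℝ)) atTop (𝓝 c) ↔
    Tendsto (fun n : ℕ => L (X n) / (n : ℝ)) atTop (𝓝 c)
  rw [← key]
  constructor
  · intro hX
    have := hX.mul h1'
    rw [mul_one] at this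
    refine this.congr' ?_
    filter_upwards [eventually_ge_atTop 1] with n hn
    have hn0 : (n : ℝ) ≠ 0 := by
      have : (0 : ℝ) < n := by exact_mod_cast hn
      exact this.ne'
    have hn1 : ((n + 1 : ℕ) : ℝ) ≠ 0 := by positivity
    field_simp
  · intro hX
    have := hX.mul h1
    rw [mul_one] at this
    refine this.congr' ?_
    filter_upwards [eventually_ge_atTop 1] with n hn
    have hn0 : (n : ℝ) ≠ 0 := by
      have : (0 : ℝ) < n := by exact_mod_cast hn
      exact this.ne'
    have hn1 : ((n + 1 : ℕ) : ℝ) ≠ 0 := by positivity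
    field_simp

/-- **Directional law of large numbers given escape**: the limit is deterministic. -/
theorem lln_nu (hL : Lvl L) (hp : annealed μ 0 (UpR L) ≠ 0) :
    ∃ c : ℝ, annealed μ 0 (UpR L ∩ LC L c) ≠ 0 := by
  have hprob := nu_prob μ hp
  obtain ⟨r, hr⟩ := rate μ hL hp
  set g : ℝ := ∫ X, L (dsp (sg L X)) ∂(nu L μ) with hg
  refine ⟨g * r, ?_⟩
  have h1 : ∀ᵐ X ∂(nu L μ), X ∈ LC L (g * r) := by
    filter_upwards [hr, slln μ hL hp (fun a => L (dsp a)) (int_height μ hL hp),
      all_blocks μ hL hp] with X h2 h3 h4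
    refine limit_aux (S := St L X) (H := Ht L X) ?_ (St_strict h4.2)
      (fun m n h5 h6 => sandwich h4.1 h4.2 m n h5 h6) (Ht_nonneg h4.2) ?_ h2
    · simp [St]
    · exact h3
  intro h0
  have hm := (measurableSet_upR L).inter (meas_LC L (g * r))
  rw [← annM_apply μ 0 hm] at h0
  have h5 : nu L μ (LC L (g * r)) = 0 := by rw [nu_apply, h0, mul_zero]
  have h6 : nu L μ (LC L (g * r))ᶜ = 0 := h1
  have h7 : nu L μ Set.univ ≤ 0 := by
    rw [← Set.union_compl_self (LC L (g * r))]
    exact (measure_union_le _ _).trans (by rw [h5, h6, add_zero])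
  rw [measure_univ] at h7
  exact absurd h7 (by simp)

end Reg

end Vale.Agent.P147.Z
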