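import Mathlib.MeasureTheory.Integral.DominatedConvergence
import Mathlib.MeasureTheory.Integral.Bochner.ContinuousLinearMap
import Mathlib.MeasureTheory.Function.L1Space.Integrable
import Mathlib.Dynamics.Ergodic.MeasurePreserving
import Mathlib.MeasureTheory.Constructions.BorelSpace.Order
import Mathlib.Tactic

/-! Sums over a stationary sequence that are sublinear do not tend to infinity. -/

open MeasureTheory Filter
open scoped ENNReal Topology

namespace Vale.Agent.P147.Stat

variable {Ω : Type*} [MeasurableSpace Ω] {ν : Measure Ω} [IsProbabilityMeasure ν] {T : Ω → Ω}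
  {V : Ω → ℝ}

/-- Partial sums along the orbit. -/
noncomputable def Sm (T : Ω → Ω) (V : Ω → ℝ) (n : ℕ) (x : Ω) : ℝ :=
  ∑ k ∈ Finset.range n, V (T^[k] x)

omit [MeasurableSpace Ω] in
lemma Sm_succ (n : ℕ) (x : Ω) : Sm T V (n + 1) x = V x + Sm T V n (T x) := by
  rw [Sm, Finset.sum_range_succ', add_comm]
  rfl

omit [MeasurableSpace Ω] in
lemma Sm_add (n m : ℕ) (x : Ω) : Sm T V (n + m) x = Sm T V n x + Sm T V m (T^[n] x) := by
  rw [Sm, Finset.sum_range_add]
  congr 1
  refine Finset.sum_congr rfl fun k _ => ?_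
  rw [add_comm n k, Function.iterate_add_apply]

/-- The lower bound of the sums. -/
noncomputable def Zf (T : Ω → Ω) (V : Ω → ℝ) (x : Ω) : ℝ := ⨅ n, Sm T V n x

omit [MeasurableSpace Ω] in
lemma bdd_of {x : Ω} (hx : Tendsto (fun n => Sm T V n x) atTop atTop) :
    BddBelow (Set.range fun n => Sm T V n x) := by
  obtain ⟨N, hN⟩ := eventually_atTop.1 (tendsto_atTop.1 hx 0)
  obtain ⟨M, hM⟩ := ((Finset.range N).image fun n => -Sm T V n x).exists_le
  refine ⟨min 0 (-M), ?_⟩
  rintro _ ⟨n, rfl⟩
  rcases lt_or_ge n N with h | h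
  · have := hM _ (Finset.mem_image_of_mem (fun n => -Sm T V n x) (Finset.mem_range.2 h))
    exact (min_le_right _ _).trans (by simp only at this ⊢; linarith)
  · exact (min_le_left _ _).trans (hN n h)

omit [MeasurableSpace Ω] in
lemma tend_T {x : Ω} (hx : Tendsto (fun n => Sm T V n x) atTop atTop) :
    Tendsto (fun n => Sm T V n (T x)) atTop atTop := by
  have h1 := (tendsto_add_atTop_iff_nat (f := fun n => Sm T V n x) 1).2 hx
  have h2 := tendsto_atTop_add_const_right atTop (-V x) h1
  refine h2.congr fun n => ?_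
  rw [Sm_succ]
  ring

omit [MeasurableSpace Ω] in
lemma tend_iter {x : Ω} (hx : Tendsto (fun n => Sm T V n x) atTop atTop) (k : ℕ) :
    Tendsto (fun n => Sm T V n (T^[k] x)) atTop atTop := by
  induction k with
  | zero => exact hx
  | succ k ih => rw [Function.iterate_succ_apply']; exact tend_T ih

omit [MeasurableSpace Ω] in
lemma Zf_le {x : Ω} (hx : Tendsto (fun n => Sm T V n x) atTop atTop) (n : ℕ) :
    Zf T V x ≤ Sm T V n x := ciInf_le (bdd_of hx) n

/-- The increment of the future minimum. -/
noncomputable def Df (T : Ω → Ω) (V : Ω → ℝ) (x : Ω) : ℝ := V x + Zf T V (T x) - Zf T V x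

omit [MeasurableSpace Ω] in
lemma Df_nonneg {x : Ω} (hx : Tendsto (fun n => Sm T V n x) atTop atTop) : 0 ≤ Df T V x := by
  have h1 : Zf T V x - V x ≤ Zf T V (T x) := by
    refine le_ciInf fun n => ?_
    have := Zf_le hx (n + 1)
    rw [Sm_succ] at this
    linarith
  rw [Df]
  linarith

omit [MeasurableSpace Ω] in
lemma Df_sum (N : ℕ) (x : Ω) : ∑ k ∈ Finset.range N, Df T V (T^[k] x) =
    Sm T V N x + Zf T V (T^[N] x) - Zf T V x := by
  induction N with
  | zero => simp [Sm]
  | succ N ih =>
    rw [Finset.sum_range_succ, ih, Df, Sm, Sm, Finset.sum_range_succ,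
      Function.iterate_succ_apply']
    ring

/-- Sublinear sums over a stationary sequence do not tend to infinity almost surely. -/
theorem no_escape (hT : MeasurePreserving T ν ν) (hV : Measurable V)
    (h0 : ∀ᵐ x ∂ν, Tendsto (fun n : ℕ => Sm T V n x / n) atTop (𝓝 0))
    (hinf : ∀ᵐ x ∂ν, Tendsto (fun n => Sm T V n x) atTop atTop) : False := by
  have hmS : ∀ n, Measurable (Sm T V n) := fun n =>
    Finset.measurable_sum _ fun k _ => hV.comp (hT.iterate k).measurable
  have hmZ : Measurable (Zf T V) := Measurable.iInf hmS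
  have hmD : Measurable (Df T V) := (hV.add (hmZ.comp hT.measurable)).sub hmZ
  -- truncated increment
  set g : Ω → ℝ := fun x => min (Df T V x) 1 with hg
  have hmg : Measurable g := hmD.min measurable_const
  have hg0 : ∀ᵐ x ∂ν, 0 ≤ g x := by
    filter_upwards [hinf] with x hx using le_min (Df_nonneg hx) zero_le_one
  have hgi : Integrable g ν := by
    refine Integrable.of_bound (C := 1) hmg.aestronglyMeasurable ?_
    filter_upwards [hg0] with x hx
    rw [Real.norm_of_nonneg hx]
    exact min_le_right _ _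
  have hgk : ∀ k : ℕ, ∫ x, g (T^[k] x) ∂ν = ∫ x, g x ∂ν := by
    intro k
    have h1 := integral_map (μ := ν) (φ := T^[k]) (f := g)
      (hT.iterate k).measurable.aemeasurable hmg.aestronglyMeasurable
    rw [(hT.iterate k).map_eq] at h1
    exact h1.symm
  have hgki : ∀ k : ℕ, Integrable (fun x => g (T^[k] x)) ν := fun k =>
    (hT.iterate k).integrable_comp_of_integrable hgi
  -- the upper bound
  set F : ℕ → Ω → ℝ := fun N x => min 1 (max 0 ((Sm T V N x - Zf T V x) / N)) with hF
  have hmF : ∀ N, Measurable (F N) := fun N =>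
    measurable_const.min (measurable_const.max (((hmS N).sub hmZ).div_const _))
  have hF0 : ∀ N x, 0 ≤ F N x := fun N x => le_min zero_le_one (le_max_left _ _)
  have hFlim : Tendsto (fun N => ∫ x, F N x ∂ν) atTop (𝓝 (∫ _, (0 : ℝ) ∂ν)) := by
    refine tendsto_integral_of_dominated_convergence (fun _ => 1)
      (fun N => (hmF N).aestronglyMeasurable) (integrable_const _) ?_ ?_
    · intro N
      refine Eventually.of_forall fun x => ?_
      rw [Real.norm_of_nonneg (hF0 N x)]
      exact min_le_left _ _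
    · filter_upwards [h0] with x hx
      have h1 : Tendsto (fun N : ℕ => Zf T V x / N) atTop (𝓝 0) :=
        tendsto_const_div_atTop_nhds_zero_nat _
      have h2 := hx.sub h1
      rw [sub_zero] at h2
      have h3 : Tendsto (fun N : ℕ => (Sm T V N x - Zf T V x) / N) atTop (𝓝 0) :=
        h2.congr fun N => by rw [sub_div]
      have h4 := (tendsto_const_nhds (x := (1 : ℝ))).min ((tendsto_const_nhds (x := (0 : ℝ))).max h3)
      simpa using h4
  have hle : ∀ N : ℕ, 1 ≤ N → ∫ x, g x ∂ν ≤ ∫ x, F N x ∂ν := by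
    intro N hN
    have hN0 : (0 : ℝ) < N := by exact_mod_cast hN
    have h1 : ∫ x, g x ∂ν = ∫ x, (∑ k ∈ Finset.range N, g (T^[k] x)) / N ∂ν := by
      rw [integral_div, integral_finsetSum _ fun k _ => hgki k]
      simp only [hgk, Finset.sum_const, Finset.card_range, nsmul_eq_mul]
      field_simp
    rw [h1]
    have hFi : Integrable (F N) ν := by
      refine Integrable.of_bound (C := 1) (hmF N).aestronglyMeasurable ?_
      refine Eventually.of_forall fun x => ?_
      rw [Real.norm_of_nonneg (hF0 N x)]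
      exact min_le_left _ _
    refine integral_mono_ae ((integrable_finsetSum _ fun k _ => hgki k).div_const _) hFi ?_
    filter_upwards [hinf] with x hx
    refine le_min ?_ (le_max_of_le_right ?_)
    · rw [div_le_one hN0]
      calc ∑ k ∈ Finset.range N, g (T^[k] x) ≤ ∑ k ∈ Finset.range N, (1 : ℝ) :=
            Finset.sum_le_sum fun k _ => min_le_right _ _
        _ = N := by simp
    · refine div_le_div_of_nonneg_right ?_ hN0.le
      calc ∑ k ∈ Finset.range N, g (T^[k] x) ≤ ∑ k ∈ Finset.range N, Df T V (T^[k] x) :=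
            Finset.sum_le_sum fun k _ => min_le_left _ _
        _ = Sm T V N x + Zf T V (T^[N] x) - Zf T V x := Df_sum N x
        _ ≤ _ := by
            have h2 := Zf_le (tend_iter hx N) 0
            have h3 : Sm T V 0 (T^[N] x) = 0 := by simp [Sm]
            rw [h3] at h2
            linarith
  have hg1 : ∫ x, g x ∂ν ≤ 0 := by
    rw [integral_zero] at hFlim
    exact ge_of_tendsto hFlim (by filter_upwards [eventually_ge_atTop 1] with N hN using hle N hN)
  have hg2 : ∀ᵐ x ∂ν, g x = 0 := by
    have h1 : ∫ x, g x ∂ν = 0 := le_antisymm hg1 (integral_nonneg_of_ae hg0)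
    exact (integral_eq_zero_iff_of_nonneg_ae hg0 hgi).1 h1
  have hD : ∀ᵐ x ∂ν, Df T V x = 0 := by
    filter_upwards [hg2] with x hx
    rw [hg] at hx
    rcases min_eq_iff.1 hx with ⟨h1, _⟩ | ⟨h1, _⟩
    · exact h1
    · norm_num at h1
  have hDk : ∀ᵐ x ∂ν, ∀ k : ℕ, Df T V (T^[k] x) = 0 := by
    rw [ae_all_iff]
    intro k
    exact (hT.iterate k).quasiMeasurePreserving.ae hD
  obtain ⟨x, hx1, hx2⟩ := (hDk.and hinf).exists
  obtain ⟨N, hN⟩ := eventually_atTop.1 (tendsto_atTop.1 hx2 (Zf T V x + 1))
  have h1 := Df_sum (T := T) (V := V) N x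
  simp only [hx1, Finset.sum_const_zero] at h1
  have h2 : Zf T V x + 1 - Sm T V N x ≤ Zf T V (T^[N] x) := by
    refine le_ciInf fun m => ?_
    have h3 := hN (N + m) (by omega)
    rw [Sm_add] at h3
    linarith
  linarith

end Vale.Agent.P147.Stat
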